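import Mathlib

/-! The area theorem for `1 / h`, where `h` is univalent with a zero inside the unit disc. -/

namespace Vale.Agent.P142

open Complex Metric Set Filter MeasureTheory Topology
open scoped Real ComplexConjugate Interval

theorem deriv_ne_zero_of_injOn {f : ℂ → ℂ} {U : Set ℂ} (hU : IsOpen U)
    (hf : DifferentiableOn ℂ f U) (hi : InjOn f U) {z₀ : ℂ} (hz : z₀ ∈ U) : deriv f z₀ ≠ 0 := by
  intro h0
  have hn : U ∈ 𝓝 z₀ := hU.mem_nhds hz
  have ha : AnalyticAt ℂ (fun z => f z - f z₀) z₀ := (hf.analyticAt hn).sub analyticAt_const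
  have hne : ¬ ∀ᶠ z in 𝓝 z₀, f z - f z₀ = 0 := fun h => by
    have : ∀ᶠ z in 𝓝[≠] z₀, z = z₀ := nhdsWithin_le_nhds ((h.and hn).mono fun z hz' =>
      hi hz'.2 hz (sub_eq_zero.mp hz'.1))
    obtain ⟨z, h1, h2⟩ := (this.and self_mem_nhdsWithin).exists
    exact h2 h1
  obtain ⟨n, g, hg, hg0, he⟩ := ha.exists_eventuallyEq_pow_smul_nonzero_iff.mpr hne
  have n0 : n ≠ 0 := by
    rintro rfl
    exact hg0 (by simpa using he.self_of_nhds.symm)
  have n1 : n ≠ 1 := by
    rintro rfl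
    have h1 := ((hasDerivAt_id z₀).sub_const z₀).mul hg.differentiableAt.hasDerivAt
    have h2 := ((hf.differentiableAt hn).hasDerivAt.sub_const (f z₀))
    have := h2.unique (h1.congr_of_eventuallyEq (he.mono fun z hz => by simpa using hz))
    exact hg0 (by simpa [h0] using this.symm)
  have hl : AnalyticAt ℂ (fun z => exp (log (g z / g z₀) / n)) z₀ :=
    (((hg.div_const).clog (by simp [hg0])).div_const).cexp
  have hφ := HasStrictDerivAt.mul (show HasStrictDerivAt (fun z => id z - z₀) 1 z₀ from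
    (hasStrictDerivAt_id z₀).sub_const z₀) hl.hasStrictDerivAt
  have hm := hφ.map_nhds_eq (by simp [hg0])
  have hg1 : ∀ᶠ z in 𝓝 z₀, g z ≠ 0 := hg.continuousAt.eventually_ne hg0
  have hs := image_mem_map (m := (fun z => id z - z₀) * fun z => exp (log (g z / g z₀) / n))
    ((he.and hg1).and hn)
  rw [hm] at hs
  simp only [Pi.mul_apply, id, sub_self, zero_mul] at hs
  obtain ⟨ε, hε, hs⟩ := Metric.mem_nhds_iff.mp hs
  have hζ := Complex.isPrimitiveRoot_exp n n0
  set ζ := exp (2 * π * I / n)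
  have key : ∀ y ∈ ball (0 : ℂ) ε, ∃ z ∈ U, (z - z₀) * exp (log (g z / g z₀) / n) = y ∧
      f z = f z₀ + y ^ n * g z₀ := fun y hy => by
    obtain ⟨z, ⟨⟨h1, h2⟩, h3⟩, h4⟩ := hs hy
    refine ⟨z, h3, h4, ?_⟩
    simp only [Pi.mul_apply, id] at h4
    rw [← h4, mul_pow, ← exp_nat_mul, mul_div_cancel₀ _ (by exact_mod_cast n0),
      exp_log (div_ne_zero h2 hg0), mul_assoc, div_mul_cancel₀ _ hg0, ← smul_eq_mul, ← h1]
    ring
  obtain ⟨z₁, u1, e1, f1⟩ := key (ε / 2 : ℝ) (by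
    rw [mem_ball_zero_iff, norm_real, Real.norm_of_nonneg (by linarith)]; linarith)
  obtain ⟨z₂, u2, e2, f2⟩ := key (ζ * (ε / 2 : ℝ)) (by
    rw [mem_ball_zero_iff, norm_mul, hζ.norm'_eq_one n0, norm_real,
      Real.norm_of_nonneg (by linarith)]; linarith)
  rw [mul_pow, hζ.pow_eq_one, one_mul, ← f1] at f2
  rw [hi u2 u1 f2, e1] at e2
  have : ((ε / 2 : ℝ) : ℂ) ≠ 0 := by exact_mod_cast (by linarith : ε / 2 ≠ 0)
  exact hζ.ne_one (by omega) (mul_right_cancel₀ this (by rw [← e2, one_mul]))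

/-- `∂̄ ∂` of `1 / (|s|² + ε)`. -/
noncomputable def eta (ε : ℝ) (s : ℂ) : ℝ := (‖s‖ ^ 2 - ε) / (‖s‖ ^ 2 + ε) ^ 3

theorem continuous_eta {ε : ℝ} (hε : 0 < ε) : Continuous (eta ε) :=
  Continuous.div (by fun_prop) (by fun_prop) fun s => by positivity

theorem integrable_eta {ε : ℝ} (hε : 0 < ε) (hε1 : ε ≤ 1) : Integrable (eta ε) := by
  refine ((integrable_rpow_neg_one_add_norm_sq (E := ℂ) (μ := volume) (r := 4)
    (by norm_num)).const_mul (ε⁻¹ ^ 2)).mono' (continuous_eta hε).aestronglyMeasurable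
    (Eventually.of_forall fun s => ?_)
  have h1 : ε * (1 + ‖s‖ ^ 2) ≤ ‖s‖ ^ 2 + ε := by nlinarith [sq_nonneg ‖s‖]
  rw [show (-4 / 2 : ℝ) = -(2 : ℕ) by norm_num, Real.rpow_neg (by positivity), Real.rpow_natCast,
    inv_pow, ← mul_inv, ← mul_pow, Real.norm_eq_abs, eta, abs_div, abs_of_pos (a := _ ^ 3) (by positivity),
    div_le_iff₀ (by positivity)]
  calc _ ≤ ‖s‖ ^ 2 + ε := abs_le.mpr ⟨by nlinarith [sq_nonneg ‖s‖], by linarith⟩
    _ = ((‖s‖ ^ 2 + ε) ^ 2)⁻¹ * (‖s‖ ^ 2 + ε) ^ 3 := by field_simp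
    _ ≤ _ := by gcongr

theorem integral_eta {ε : ℝ} (hε : 0 < ε) (hε1 : ε ≤ 1) : ∫ s, eta ε s = 0 := by
  have h1 := integral_fun_norm_addHaar (volume : Measure ℂ) (fun r => (r ^ 2 - ε) / (r ^ 2 + ε) ^ 3)
  have h2 := (integrable_fun_norm_addHaar (volume : Measure ℂ)
    (f := fun r => (r ^ 2 - ε) / (r ^ 2 + ε) ^ 3)).mp (integrable_eta hε hε1)
  have h3 := integral_Ioi_of_hasDerivAt_of_tendsto' (a := 0) (m := 0)
    (f := fun r : ℝ => -(r ^ 2 + ε)⁻¹ / 2 + ε * (r ^ 2 + ε)⁻¹ ^ 2 / 2) (fun r _ => by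
      have h := (((hasDerivAt_pow 2 r).add_const ε).inv (by positivity))
      refine ((h.neg.div_const 2).add (((h.pow 2).const_mul ε).div_const 2)).congr_deriv ?_
      simp only [finrank_real_complex, Pi.inv_apply, smul_eq_mul, Nat.add_one_sub_one, pow_one]
      field_simp
      ring) h2 (by
      have h : Tendsto (fun r : ℝ => (r ^ 2 + ε)⁻¹) atTop (𝓝 0) :=
        tendsto_inv_atTop_zero.comp (tendsto_atTop_add_const_right _ _ (tendsto_pow_atTop two_ne_zero))
      simpa using (h.neg.div_const 2).add (((h.pow 2).const_mul ε).div_const 2))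
  unfold eta
  rw [h1, h3]
  have : -(0 ^ 2 + ε)⁻¹ / 2 + ε * (0 ^ 2 + ε)⁻¹ ^ 2 / 2 = 0 := by
    rw [zero_pow two_ne_zero, zero_add]; field_simp; ring
  rw [this]; simp

theorem rect_integral {g : ℂ → ℝ} {a b c d : ℝ} (hab : a ≤ b) (hcd : c ≤ d)
    (hg : IntegrableOn g (Ioo a b ×ℂ Ioo c d)) :
    ∫ x in a..b, ∫ y in c..d, g (x + y * I) = ∫ z in Ioo a b ×ℂ Ioo c d, g z := by
  have hp := volume_preserving_equiv_real_prod.symm
  have e : measurableEquivRealProd.symm ⁻¹' (Ioo a b ×ℂ Ioo c d) = Ioo a b ×ˢ Ioo c d := rfl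
  have h1 := hp.setIntegral_preimage_emb measurableEquivRealProd.symm.measurableEmbedding g
    (Ioo a b ×ℂ Ioo c d)
  have h2 := (hp.integrableOn_comp_preimage measurableEquivRealProd.symm.measurableEmbedding).mpr hg
  rw [e] at h1 h2
  rw [← h1, Measure.volume_eq_prod,
    setIntegral_prod (fun x => g (measurableEquivRealProd.symm x)) h2]
  simp only [intervalIntegral.integral_of_le hab, intervalIntegral.integral_of_le hcd,
    integral_Ioc_eq_integral_Ioo, measurableEquivRealProd_symm_apply, mk_eq_add_mul_I]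

theorem det_smul_one (a : ℂ) : (a • (1 : ℂ →L[ℝ] ℂ)).det = ‖a‖ ^ 2 := by
  rw [← Complex.normSq_eq_norm_sq, ← Algebra.norm_complex_apply, Algebra.norm_apply]
  congr 1

/-- `∂` of `1 / (|s|² + ε)`. -/
noncomputable def Om (ε : ℝ) (s : ℂ) : ℂ := -conj s * ((s * conj s + ε) ^ 2)⁻¹

theorem mul_conj_add_ne {ε : ℝ} (hε : 0 < ε) (s : ℂ) : s * conj s + ε ≠ 0 := by
  rw [mul_conj, normSq_eq_norm_sq]
  exact_mod_cast (by positivity : ‖s‖ ^ 2 + ε ≠ 0)

theorem dbar_Om {ε : ℝ} (hε : 0 < ε) {H H' : ℂ → ℂ} {s H'' : ℂ} (h1 : HasDerivAt H (H' s) s)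
    (h2 : HasDerivAt H' H'' s) : ∃ L : ℂ →L[ℝ] ℂ, HasFDerivAt (fun s => Om ε (H s) * H' s) L s ∧
      I • L 1 - L I = 2 * I * ((‖H' s‖ ^ 2 * eta ε (H s) : ℝ) : ℂ) := by
  have a1 := h1.complexToReal_fderiv
  have a2 := conjCLE.hasFDerivAt.comp s a1
  have hne := mul_conj_add_ne hε (H s)
  have a3 := ((hasDerivAt_pow 2 (H s * conj (H s) + ε)).inv
    (pow_ne_zero 2 hne)).complexToReal_fderiv.comp s ((a1.mul a2).add_const (ε : ℂ))
  refine ⟨_, (a2.neg.mul a3).mul h2.complexToReal_fderiv, ?_⟩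
  have e1 : ((‖H' s‖ : ℝ) : ℂ) ^ 2 = H' s * conj (H' s) := by
    rw [mul_conj, normSq_eq_norm_sq]; push_cast; rfl
  have e2 : ((‖H s‖ : ℝ) : ℂ) ^ 2 = H s * conj (H s) := by
    rw [mul_conj, normSq_eq_norm_sq]; push_cast; rfl
  simp [eta, e1, e2]
  field_simp
  ring_nf

theorem continuous_Om {ε : ℝ} (hε : 0 < ε) : Continuous (Om ε) :=
  Continuous.mul (by fun_prop) (Continuous.inv₀ (by fun_prop) fun s =>
    pow_ne_zero 2 (mul_conj_add_ne hε s))

theorem area_eps {h : ℂ → ℂ} {R : ℝ} (hR : 1 < R) (hd : DifferentiableOn ℂ h (ball 0 R))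
    (hi : InjOn h (ball 0 R)) {w : ℂ} (hw0 : w ≠ 0) (hw : ‖w‖ < 1) (hz : h w = 0) :
    ∀ᶠ ε in 𝓝[>] (0 : ℝ), (∫ θ in (0 : ℝ)..2 * π,
      Om ε (h (exp (θ * I))) * (deriv h (exp (θ * I)) * exp (θ * I))).re ≤ 0 := by
  set H : ℂ → ℂ := fun s => h (exp s) with hH
  set H' : ℂ → ℂ := fun s => deriv h (exp s) * exp s with hH'
  have hb : ∀ s : ℂ, s.re ≤ 0 → exp s ∈ ball (0 : ℂ) R := fun s hs => by
    rw [mem_ball_zero_iff, norm_exp]; exact (Real.exp_le_one_iff.mpr hs).trans_lt hR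
  have a1 : ∀ s : ℂ, s.re ≤ 0 → AnalyticAt ℂ h (exp s) := fun s hs =>
    hd.analyticAt (isOpen_ball.mem_nhds (hb s hs))
  have d1 : ∀ s : ℂ, s.re ≤ 0 → HasDerivAt H (H' s) s := fun s hs =>
    (a1 s hs).differentiableAt.hasDerivAt.comp s (hasDerivAt_exp s)
  have d2 : ∀ s : ℂ, s.re ≤ 0 → DifferentiableAt ℂ H' s := fun s hs =>
    ((a1 s hs).deriv.differentiableAt.comp s differentiableAt_exp).mul differentiableAt_exp
  set c := w.arg - π
  let Rc : ℝ → Set ℂ := fun a => Ioo a 0 ×ℂ Ioo c (c + 2 * π)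
  have Ro : ∀ a, IsOpen (Rc a) := fun a => isOpen_Ioo.reProdIm isOpen_Ioo
  have hl : Real.log ‖w‖ < 0 := Real.log_neg (norm_pos_iff.mpr hw0) hw
  have m0 : log w ∈ Rc (Real.log ‖w‖ - 1) := by
    simp only [Rc, c, mem_reProdIm, log_re, log_im, mem_Ioo]
    refine ⟨⟨by linarith, hl⟩, ?_, ?_⟩ <;> linarith [Real.pi_pos]
  have hn : H '' Rc (Real.log ‖w‖ - 1) ∈ 𝓝 (0 : ℂ) := by
    have hs : (log w).re ≤ 0 := by rw [log_re]; exact hl.le
    have h1 : HasStrictDerivAt H (H' (log w)) (log w) := by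
      have := ((a1 _ hs).comp analyticAt_cexp).hasStrictDerivAt
      rwa [show deriv (h ∘ exp) (log w) = _ from (d1 _ hs).deriv] at this
    have h2 := h1.map_nhds_eq (mul_ne_zero (deriv_ne_zero_of_injOn isOpen_ball hd hi (hb _ hs))
      (exp_ne_zero _))
    rw [show H (log w) = 0 by simp [hH, exp_log hw0, hz] ] at h2
    exact h2 ▸ image_mem_map ((Ro _).mem_nhds m0)
  obtain ⟨δ, hδ, hn⟩ := Metric.mem_nhds_iff.mp hn
  filter_upwards [Ioo_mem_nhdsGT (lt_min (pow_pos hδ 2) one_pos)] with ε ⟨hε, hε'⟩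
  rw [lt_min_iff] at hε'
  set F : ℂ → ℂ := fun s => Om ε (H s) * H' s with hF
  have cF : ∀ s : ℂ, s.re ≤ 0 → ContinuousAt F s := fun s hs =>
    ((continuous_Om hε).continuousAt.comp (d1 s hs).continuousAt).mul (d2 s hs).continuousAt
  have per : ∀ s, F (s + 2 * π * I) = F s := fun s => by simp only [hF, hH, hH', exp_periodic s]
  obtain ⟨C, hC⟩ := (isCompact_closedBall (0 : ℂ) 1).exists_bound_of_continuousOn
    (f := fun z => Om ε (h z) * deriv h z) (((continuous_Om hε).comp_continuousOn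
      (hd.continuousOn.mono (closedBall_subset_ball hR))).mul
      ((hd.deriv isOpen_ball).continuousOn.mono (closedBall_subset_ball hR)))
  have key : ∀ a < Real.log ‖w‖ - 1, (∫ y in c..c + 2 * π, F (y * I)).re ≤
      C * Real.exp a * (2 * π) := fun a ha => by
    have ha0 : a ≤ 0 := by linarith
    have hc : c ≤ c + 2 * π := by linarith [Real.pi_pos]
    have hre : ∀ s ∈ Icc a 0 ×ℂ Icc c (c + 2 * π), s.re ≤ 0 := fun s hs => hs.1.2
    have cg : IntegrableOn (fun s => ‖H' s‖ ^ 2 * eta ε (H s)) (Icc a 0 ×ℂ Icc c (c + 2 * π)) :=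
      ContinuousOn.integrableOn_compact (isCompact_Icc.reProdIm isCompact_Icc) fun s hs =>
        (((d2 s (hre s hs)).continuousAt.norm.pow 2).mul ((continuous_eta hε).continuousAt.comp
          (d1 s (hre s hs)).continuousAt)).continuousWithinAt
    have dF : ∀ s : ℂ, s.re ≤ 0 → HasFDerivAt F (fderiv ℝ F s) s ∧ I • fderiv ℝ F s 1 -
        fderiv ℝ F s I = 2 * I * ((‖H' s‖ ^ 2 * eta ε (H s) : ℝ) : ℂ) := fun s hs => by
      obtain ⟨L, h1, h2⟩ := dbar_Om hε (d1 s hs) (d2 s hs).hasDerivAt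
      rw [h1.fderiv]; exact ⟨h1, h2⟩
    have G := integral_boundary_rect_of_hasFDerivAt_real_off_countable F (fderiv ℝ F) ⟨a, c⟩
      ⟨0, c + 2 * π⟩ ∅ countable_empty (by
        simp only [uIcc_of_le ha0, uIcc_of_le hc]
        exact fun s hs => (cF s (hre s hs)).continuousWithinAt)
      (fun s hs => (dF s (by
        have := hs.1.1.2; simp only [max_eq_right ha0, mem_preimage] at this; exact this.le)).1) (by
        simp only [uIcc_of_le ha0, uIcc_of_le hc]
        exact IntegrableOn.congr_fun (cg.ofReal.const_mul (2 * I))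
          (fun s hs => (dF s (hre s hs)).2.symm)
          (isCompact_Icc.reProdIm isCompact_Icc).measurableSet)
    have e1 : ∀ x : ℝ, F (x + ((c + 2 * π : ℝ) : ℂ) * I) = F (x + c * I) := fun x => by
      rw [← per (x + c * I)]; congr 1; push_cast; ring
    have e2 : (∫ x in a..0, ∫ y in c..c + 2 * π, I • fderiv ℝ F (x + y * I) 1 -
        fderiv ℝ F (x + y * I) I) = 2 * I * ((∫ x in a..0, ∫ y in c..c + 2 * π,
          ‖H' (x + y * I)‖ ^ 2 * eta ε (H (x + y * I)) : ℝ) : ℂ) := by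
      rw [← intervalIntegral.integral_ofReal, ← intervalIntegral.integral_const_mul]
      refine intervalIntegral.integral_congr fun x hx => ?_
      rw [uIcc_of_le ha0] at hx
      rw [← intervalIntegral.integral_ofReal, ← intervalIntegral.integral_const_mul]
      exact intervalIntegral.integral_congr fun y _ => (dF _ (by simpa using hx.2)).2
    have sub : Rc a ⊆ Icc a 0 ×ℂ Icc c (c + 2 * π) := fun s hs =>
      ⟨Ioo_subset_Icc_self hs.1, Ioo_subset_Icc_self hs.2⟩
    have inj : InjOn H (Rc a) := fun s hs t ht e => by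
      obtain ⟨n, hn⟩ := exp_eq_exp_iff_exists_int.mp
        (hi (hb s (hre s (sub hs))) (hb t (hre t (sub ht))) e)
      have h1 := congrArg im hn
      simp only [add_im, mul_im, intCast_re, intCast_im, mul_re, re_ofNat, ofReal_re, im_ofNat,
        ofReal_im, I_re, I_im] at h1
      have h2 := hs.2; have h3 := ht.2
      simp only [mem_preimage, mem_Ioo] at h2 h3
      have h4 : (-1 : ℝ) < n := by nlinarith [Real.pi_pos]
      have h5 : (n : ℝ) < 1 := by nlinarith [Real.pi_pos]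
      obtain rfl : n = 0 := by
        have : -1 < n := by exact_mod_cast h4
        have : n < 1 := by exact_mod_cast h5
        omega
      simpa using hn
    have dd : ∀ s ∈ Rc a, HasFDerivWithinAt H (H' s • (1 : ℂ →L[ℝ] ℂ)) (Rc a) s := fun s hs =>
      (d1 s (hre s (sub hs))).complexToReal_fderiv.hasFDerivWithinAt
    have cv := integral_image_eq_integral_abs_det_fderiv_smul volume (Ro a).measurableSet dd inj
      (eta ε)
    simp only [det_smul_one, abs_pow, abs_norm, smul_eq_mul] at cv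
    have neg : ∫ s in H '' Rc a, eta ε s ≤ 0 := by
      have hm := measurable_image_of_fderivWithin (Ro a).measurableSet dd inj
      have := integral_add_compl hm (integrable_eta hε hε'.2.le)
      rw [integral_eta hε hε'.2.le] at this
      have h2 : 0 ≤ ∫ s in (H '' Rc a)ᶜ, eta ε s := setIntegral_nonneg hm.compl fun s hs => by
        have : δ ≤ ‖s‖ := by
          by_contra hc
          obtain ⟨t, ht, rfl⟩ := hn (mem_ball_zero_iff.mpr (not_le.mp hc))
          exact hs ⟨t, ⟨⟨ha.trans ht.1.1, ht.1.2⟩, ht.2⟩, rfl⟩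
        exact div_nonneg (by nlinarith) (by positivity)
      linarith
    rw [e2, rect_integral (g := fun s => ‖H' s‖ ^ 2 * eta ε (H s)) ha0 hc (cg.mono_set sub),
      ← cv] at G
    simp only [e1, sub_self, zero_add, ofReal_zero, smul_eq_mul] at G
    have G' : ∫ y in c..c + 2 * π, F (y * I) =
        (∫ y in c..c + 2 * π, F (a + y * I)) + 2 * ((∫ s in H '' Rc a, eta ε s : ℝ) : ℂ) :=
      mul_left_cancel₀ I_ne_zero (by linear_combination G)
    have bd := intervalIntegral.norm_integral_le_of_norm_le_const (a := c) (b := c + 2 * π)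
      (C := C * Real.exp a) (f := fun y : ℝ => F (a + y * I)) fun y _ => by
        have e : ‖exp (a + y * I)‖ = Real.exp a := by rw [norm_exp]; simp
        simp only [hF, hH, hH']
        rw [← mul_assoc, norm_mul, e]
        gcongr
        exact hC _ (by rw [mem_closedBall_zero_iff, e]; exact Real.exp_le_one_iff.mpr ha0)
    rw [add_sub_cancel_left, abs_of_pos Real.two_pi_pos] at bd
    have := (re_le_norm _).trans bd
    rw [G', add_re]
    simp only [mul_re, re_ofNat, ofReal_re, im_ofNat, ofReal_im]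
    linarith
  have pr : Function.Periodic (fun y : ℝ => F (y * I)) (2 * π) := fun y => by
    simp only; rw [← per (y * I)]; congr 1; push_cast; ring
  have e := pr.intervalIntegral_add_eq 0 c
  rw [zero_add] at e
  change (∫ y in (0 : ℝ)..2 * π, F (y * I)).re ≤ 0
  rw [e]
  refine ge_of_tendsto (x := atBot) (f := fun a : ℝ => C * Real.exp a * (2 * π)) ?_
    ((eventually_lt_atBot _).mono key)
  simpa using (Real.tendsto_exp_atBot.const_mul C).mul_const (2 * π)

theorem area_thm {h : ℂ → ℂ} {R : ℝ} (hR : 1 < R) (hd : DifferentiableOn ℂ h (ball 0 R))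
    (hi : InjOn h (ball 0 R)) {w : ℂ} (hw0 : w ≠ 0) (hw : ‖w‖ < 1) (hz : h w = 0) :
    (∫ θ in (0 : ℝ)..2 * π,
      Om 0 (h (exp (θ * I))) * (deriv h (exp (θ * I)) * exp (θ * I))).re ≤ 0 := by
  have hb : ∀ θ : ℝ, exp (θ * I) ∈ ball (0 : ℂ) R := fun θ => by simpa using hR
  have c1 : Continuous fun θ : ℝ => h (exp (θ * I)) :=
    hd.continuousOn.comp_continuous (by fun_prop) hb
  have c2 : Continuous fun θ : ℝ => deriv h (exp (θ * I)) :=
    (hd.deriv isOpen_ball).continuousOn.comp_continuous (by fun_prop) hb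
  have n0 : ∀ θ : ℝ, h (exp (θ * I)) ≠ 0 := fun θ e => by
    have := hi (hb θ) (mem_ball_zero_iff.mpr (hw.trans hR)) (e.trans hz.symm)
    rw [← this] at hw; simp at hw
  have c3 := intervalIntegral.continuous_parametric_intervalIntegral_of_continuous' (μ := volume)
    (f := fun (ε : ℝ) (θ : ℝ) => Om |ε| (h (exp (θ * I))) * (deriv h (exp (θ * I)) * exp (θ * I)))
    (by
      unfold Om
      have c1' : Continuous fun p : ℝ × ℝ => h (exp (p.2 * I)) := c1.comp continuous_snd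
      have c2' : Continuous fun p : ℝ × ℝ => deriv h (exp (p.2 * I)) := c2.comp continuous_snd
      refine Continuous.mul (Continuous.mul c1'.star.neg (Continuous.inv₀
        (((c1'.mul c1'.star).add (by fun_prop)).pow 2)
        fun p => pow_ne_zero 2 ?_)) (c2'.mul (by fun_prop))
      rw [mul_conj, normSq_eq_norm_sq]
      have := norm_pos_iff.mpr (n0 p.2)
      exact_mod_cast (by positivity : ‖h (exp (p.2 * I))‖ ^ 2 + |p.1| ≠ 0)) 0 (2 * π)
  have t := ((continuous_re.comp c3).tendsto 0).mono_left (nhdsWithin_le_nhds (s := Ioi 0))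
  simp only [Function.comp, abs_zero] at t
  refine le_of_tendsto t ?_
  filter_upwards [area_eps hR hd hi hw0 hw hz, self_mem_nhdsWithin] with ε h1 h2
  simpa only [Function.comp, abs_of_pos (mem_Ioi.mp h2)] using h1

end Vale.Agent.P142
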