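import Vale.Agent.P142.Area

/-! Laurent coefficients on circles; the area theorem in coefficient form; the two-variable
coefficients of `1 / (f z - f w)` and their antisymmetry relation. -/

namespace Vale.Agent.P142

open Complex Metric Set Filter MeasureTheory Topology
open scoped Real ComplexConjugate Interval

/-- The `n`-th Laurent coefficient of `φ` on the circle of radius `ρ`. -/
noncomputable def co (φ : ℂ → ℂ) (ρ : ℝ) (n : ℤ) : ℂ :=
  (2 * π : ℂ)⁻¹ * ∫ θ in (0 : ℝ)..2 * π, circleMap 0 ρ θ ^ (-n) * φ (circleMap 0 ρ θ)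

/-- Continuity along a circle. -/
def CC (φ : ℂ → ℂ) (ρ : ℝ) : Prop := Continuous fun θ : ℝ => φ (circleMap 0 ρ θ)

variable {φ φ' : ℂ → ℂ} {ρ r : ℝ}

theorem norm_cm (hρ : 0 < ρ) (θ : ℝ) : ‖circleMap 0 ρ θ‖ = ρ := by simp [abs_of_pos hρ]

theorem cont_zpow (hρ : 0 < ρ) (n : ℤ) : Continuous fun θ : ℝ => circleMap 0 ρ θ ^ n :=
  (continuous_circleMap 0 ρ).zpow₀ n fun _ => Or.inl (circleMap_ne_center hρ.ne')

theorem CC.of_diff (hρ : 0 < ρ) (h : ∀ z, ‖z‖ = ρ → ContinuousAt φ z) : CC φ ρ :=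
  continuous_iff_continuousAt.mpr fun θ =>
    (h _ (norm_cm hρ θ)).comp (continuous_circleMap 0 ρ).continuousAt

theorem co_eq (hρ : 0 < ρ) (n : ℤ) :
    co φ ρ n = (2 * π * I : ℂ)⁻¹ * ∮ z in C(0, ρ), z ^ (-n - 1) * φ z := by
  have : (∮ z in C(0, ρ), z ^ (-n - 1) * φ z) =
      I * ∫ θ in (0 : ℝ)..2 * π, circleMap 0 ρ θ ^ (-n) * φ (circleMap 0 ρ θ) := by
    rw [circleIntegral, ← intervalIntegral.integral_const_mul]
    refine intervalIntegral.integral_congr fun θ _ => ?_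
    have := circleMap_ne_center (c := 0) (θ := θ) hρ.ne'
    simp only [deriv_circleMap, smul_eq_mul, zpow_sub_one₀ this]
    field_simp
  rw [this, co]
  field_simp

theorem co_congr (hρ : 0 < ρ) (h : ∀ z, ‖z‖ = ρ → φ z = φ' z) (n : ℤ) : co φ ρ n = co φ' ρ n := by
  simp only [co, h _ (norm_cm hρ _)]

theorem co_lin (hρ : 0 < ρ) (h : CC φ ρ) (h' : CC φ' ρ) (c : ℂ) (n : ℤ) :
    co (fun z => φ z + c * φ' z) ρ n = co φ ρ n + c * co φ' ρ n := by
  simp only [co, mul_add, mul_left_comm _ c]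
  rw [intervalIntegral.integral_add (((cont_zpow hρ _).fun_mul h).intervalIntegrable _ _)
    ((((cont_zpow hρ _).fun_mul h').const_mul c).intervalIntegrable _ _),
    intervalIntegral.integral_const_mul]
  ring

theorem co_parseval (hρ : 0 < ρ) (h : CC φ ρ) : HasSum (fun n : ℤ => (ρ ^ n) ^ 2 * ‖co φ ρ n‖ ^ 2)
    ((2 * π)⁻¹ * ∫ θ in (0 : ℝ)..2 * π, ‖φ (circleMap 0 ρ θ)‖ ^ 2) := by
  have h1 := hasSum_sq_fourierCoeffOn (f := fun θ => φ (circleMap 0 ρ θ)) Real.two_pi_pos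
    ((memLp_two_iff_integrable_sq_norm h.aestronglyMeasurable).mpr
      ((h.norm.pow 2).integrableOn_Ioc))
  simp only [sub_zero, smul_eq_mul] at h1
  convert h1 using 2 with n
  rw [← mul_pow, fourierCoeffOn_eq_integral, ← Real.norm_of_nonneg (zpow_pos hρ n).le,
    ← norm_real, ← norm_mul, co, mul_left_comm, ← intervalIntegral.integral_const_mul]
  congr 2
  simp only [sub_zero, real_smul, ofReal_div, ofReal_one, ofReal_mul, ofReal_ofNat, one_div,
    ofReal_inv]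
  congr 1
  refine intervalIntegral.integral_congr fun θ _ => ?_
  simp only [fourier_coe_apply, smul_eq_mul, circleMap_zero, mul_zpow, ← exp_int_mul]
  have : (ρ : ℂ) ≠ 0 := by exact_mod_cast hρ.ne'
  have h2 : (π : ℂ) ≠ 0 := by exact_mod_cast Real.pi_ne_zero
  rw [← mul_assoc, ← mul_assoc, ofReal_zpow, ← zpow_add₀ this, add_neg_cancel, zpow_zero, one_mul]
  congr 2
  push_cast
  field_simp
  ring

theorem co_deriv (hρ : 0 < ρ) (h : ∀ z, ‖z‖ = ρ → HasDerivAt φ (φ' z) z) (h' : CC φ' ρ) (n : ℤ) :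
    co (fun z => z * φ' z) ρ n = n * co φ ρ n := by
  have c1 : CC φ ρ := CC.of_diff hρ fun z hz => (h z hz).continuousAt
  have c2 : CC (fun z => z * φ' z) ρ := (continuous_circleMap 0 ρ).mul h'
  have := co_lin hρ c2 c1 (-n) n
  rw [co_eq hρ, circleIntegral.integral_eq_zero_of_hasDerivWithinAt' (f := fun z => z ^ (-n) * φ z)
    fun z hz => ?_] at this
  · linear_combination -this
  · rw [mem_sphere_zero_iff_norm, abs_of_pos hρ] at hz
    have h0 : z ≠ 0 := by rintro rfl; simp at hz; linarith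
    refine (((hasDerivAt_zpow (-n) z (Or.inl h0)).mul (h z hz)).congr_deriv ?_).hasDerivWithinAt
    rw [zpow_sub_one₀ h0]
    push_cast
    field_simp
    ring

theorem co_radius (hr : 0 < r) (hrρ : r ≤ ρ)
    (h : ∀ z, r ≤ ‖z‖ → ‖z‖ ≤ ρ → DifferentiableAt ℂ φ z) (n : ℤ) : co φ ρ n = co φ r n := by
  have key : ∀ z ∈ closedBall (0 : ℂ) ρ \ ball 0 r,
      DifferentiableAt ℂ (fun z => z ^ (-n - 1) * φ z) z := fun z hz => by
    simp only [mem_diff, mem_closedBall_zero_iff, mem_ball_zero_iff, not_lt] at hz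
    exact (differentiableAt_zpow.mpr (Or.inl (by rintro rfl; simp at hz; linarith))).mul
      (h z hz.2 hz.1)
  rw [co_eq hr, co_eq (hr.trans_le hrρ), circleIntegral_eq_of_differentiable_on_annulus_off_countable
    hr hrρ countable_empty (fun z hz => (key z hz).continuousAt.continuousWithinAt)
    fun z hz => key z ⟨ball_subset_closedBall hz.1.1, fun h => hz.1.2 (ball_subset_closedBall h)⟩]

theorem co_neg (hρ : 0 < ρ) (h : ∀ z, ‖z‖ ≤ ρ → DifferentiableAt ℂ φ z) (n : ℕ) :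
    co φ ρ (-(n + 1)) = 0 := by
  have key : ∀ z ∈ closedBall (0 : ℂ) ρ, DifferentiableAt ℂ (fun z => z ^ n * φ z) z := fun z hz =>
    (differentiableAt_pow n).mul (h z (mem_closedBall_zero_iff.mp hz))
  rw [co_eq hρ, show -(-((n : ℤ) + 1)) - 1 = n by ring]
  simp only [zpow_natCast]
  rw [circleIntegral_eq_zero_of_differentiable_on_off_countable hρ.le countable_empty
    (fun z hz => (key z hz).continuousAt.continuousWithinAt)
    fun z hz => key z (ball_subset_closedBall hz.1), mul_zero]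

theorem co_param {Φ : ℂ → ℂ → ℂ} (hρ : 0 < ρ)
    (h : Continuous fun p : ℝ × ℝ => Φ (circleMap 0 ρ p.2) (circleMap 0 r p.1)) (m : ℤ) :
    CC (fun w => co (fun z => Φ z w) ρ m) r :=
  (intervalIntegral.continuous_parametric_intervalIntegral_of_continuous' (μ := volume)
    (f := fun t θ : ℝ => circleMap 0 ρ θ ^ (-m) * Φ (circleMap 0 ρ θ) (circleMap 0 r t))
    (((cont_zpow hρ _).comp continuous_snd).mul h) 0 (2 * π)).const_mul _

theorem co_swap {Φ : ℂ → ℂ → ℂ} (hρ : 0 < ρ) (hr : 0 < r)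
    (h : Continuous fun p : ℝ × ℝ => Φ (circleMap 0 ρ p.2) (circleMap 0 r p.1)) (m n : ℤ) :
    co (fun w => co (fun z => Φ z w) ρ m) r n = co (fun z => co (fun w => Φ z w) r n) ρ m := by
  simp only [co, ← intervalIntegral.integral_const_mul]
  have hc : Continuous (Function.uncurry fun t θ : ℝ => (2 * π : ℂ)⁻¹ * (circleMap 0 r t ^ (-n) *
      ((2 * π : ℂ)⁻¹ * (circleMap 0 ρ θ ^ (-m) * Φ (circleMap 0 ρ θ) (circleMap 0 r t))))) :=
    (((cont_zpow hr _).comp continuous_fst).mul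
      ((((cont_zpow hρ _).comp continuous_snd).mul h).const_mul _)).const_mul _
  simp only [intervalIntegral.integral_of_le Real.two_pi_pos.le]
  rw [integral_integral_swap]
  · congr! 4; ring
  · rw [Measure.prod_restrict, ← Measure.volume_eq_prod]
    exact (hc.continuousOn.integrableOn_compact (isCompact_Icc.prod isCompact_Icc)).mono_set
      (prod_mono Ioc_subset_Icc_self Ioc_subset_Icc_self)

variable {f : ℂ → ℂ} {R : ℝ}

section
variable (hR : 1 < R) (hd : DifferentiableOn ℂ f (ball 0 R)) (hi : InjOn f (ball 0 R))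
include hR hd hi

theorem diff_g {z w : ℂ} (hz : ‖z‖ ≤ 1) (hw : ‖w‖ ≤ 1) (hzw : z ≠ w) :
    DifferentiableAt ℂ (fun z => (f z - f w)⁻¹) z :=
  ((hd.differentiableAt (isOpen_ball.mem_nhds (mem_ball_zero_iff.mpr (hz.trans_lt hR)))).sub_const
    _).inv (sub_ne_zero.mpr fun e => hzw (hi (mem_ball_zero_iff.mpr (hz.trans_lt hR))
      (mem_ball_zero_iff.mpr (hw.trans_lt hR)) e))

theorem diff_psi {z : ℂ} (hz : ‖z‖ ≤ 1) : DifferentiableAt ℂ (fun z => (deriv f z)⁻¹) z :=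
  ((hd.deriv isOpen_ball).differentiableAt (isOpen_ball.mem_nhds
    (mem_ball_zero_iff.mpr (hz.trans_lt hR)))).inv
    (deriv_ne_zero_of_injOn isOpen_ball hd hi (mem_ball_zero_iff.mpr (hz.trans_lt hR)))

theorem diff_slope {z w : ℂ} (hz : ‖z‖ ≤ 1) (hw : ‖w‖ ≤ 1) :
    DifferentiableAt ℂ (fun z => (dslope f w z)⁻¹) z := by
  have mz := mem_ball_zero_iff.mpr (hz.trans_lt hR)
  have mw := mem_ball_zero_iff.mpr (hw.trans_lt hR)
  refine (((differentiableOn_dslope (isOpen_ball.mem_nhds mw)).mpr hd).differentiableAt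
    (isOpen_ball.mem_nhds mz)).inv ?_
  rcases eq_or_ne z w with rfl | h
  · rw [dslope_same]; exact deriv_ne_zero_of_injOn isOpen_ball hd hi mz
  · rw [dslope_of_ne _ h, slope_def_field]
    exact div_ne_zero (sub_ne_zero.mpr fun e => h (hi mz mw e)) (sub_ne_zero.mpr h)

theorem cont_g (hρ : 0 < ρ) (hρ1 : ρ ≤ 1) (hr : 0 < r) (hr1 : r ≤ 1) (h : ρ ≠ r) :
    Continuous fun p : ℝ × ℝ => (f (circleMap 0 ρ p.2) - f (circleMap 0 r p.1))⁻¹ := by
  have m : ∀ {s : ℝ}, 0 < s → s ≤ 1 → ∀ t, circleMap 0 s t ∈ ball (0 : ℂ) R := fun hs h1 t =>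
    mem_ball_zero_iff.mpr (by rw [norm_cm hs]; linarith)
  have c : ∀ {s : ℝ}, 0 < s → s ≤ 1 → Continuous fun t => f (circleMap 0 s t) := fun hs h1 =>
    hd.continuousOn.comp_continuous (continuous_circleMap _ _) (m hs h1)
  refine (((c hρ hρ1).comp continuous_snd).sub ((c hr hr1).comp continuous_fst)).inv₀ fun p e => ?_
  have := congrArg norm (hi (m hρ hρ1 _) (m hr hr1 _) (sub_eq_zero.mp e))
  rw [norm_cm hρ, norm_cm hr] at this
  exact h this

omit hR hd hi in
theorem g_eq {z w : ℂ} (h : z ≠ w) : (f z - f w)⁻¹ = (z - w)⁻¹ * (dslope f w z)⁻¹ := by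
  rw [← mul_inv, ← smul_eq_mul, sub_smul_dslope]

theorem co_g_neg {w : ℂ} (hw : ‖w‖ < 1) (m : ℕ) :
    co (fun z => (f z - f w)⁻¹) 1 (-(m + 1)) = w ^ m * (deriv f w)⁻¹ := by
  rw [co_eq one_pos, show -(-((m : ℤ) + 1)) - 1 = m by ring,
    circleIntegral.integral_congr (g := fun z => (z - w)⁻¹ • (z ^ m * (dslope f w z)⁻¹))
      zero_le_one fun z hz => by
        have : z ≠ w := by rintro rfl; simp [hw.ne] at hz
        simp only [g_eq this, zpow_natCast, smul_eq_mul]; ring,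
    DifferentiableOn.circleIntegral_sub_inv_smul (f := fun z => z ^ m * (dslope f w z)⁻¹)
      (fun z hz => ((differentiableAt_pow m).mul
      (diff_slope hR hd hi (mem_closedBall_zero_iff.mp hz) hw.le)).differentiableWithinAt)
      (mem_ball_zero_iff.mpr hw), dslope_same, smul_eq_mul, inv_mul_cancel_left₀ two_pi_I_ne_zero]

theorem co_g_jump {w : ℂ} (hw : ‖w‖ < 1) (hρ : 0 < ρ) (hρw : ρ < ‖w‖) (m : ℤ) :
    co (fun z => (f z - f w)⁻¹) 1 m =
      co (fun z => (f z - f w)⁻¹) ρ m + 1 * (w ^ (-m - 1) * (deriv f w)⁻¹) := by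
  set Ψ : ℂ → ℂ := fun z => z ^ (-m - 1) * (dslope f w z)⁻¹ with hΨ
  have dΨ : ∀ z, z ≠ 0 → ‖z‖ ≤ 1 → DifferentiableAt ℂ Ψ z := fun z h0 h1 =>
    (differentiableAt_zpow.mpr (Or.inl h0)).mul (diff_slope hR hd hi h1 hw.le)
  have w0 : w ≠ 0 := by rintro rfl; simp at hρw; linarith
  have dS : ∀ z, z ≠ 0 → ‖z‖ ≤ 1 → DifferentiableAt ℂ (dslope Ψ w) z := fun z h0 h1 => by
    rcases eq_or_ne z w with rfl | h
    · have hU : ball (0 : ℂ) 1 ∩ {0}ᶜ ∈ 𝓝 z :=
        (isOpen_ball.inter isOpen_compl_singleton).mem_nhds ⟨mem_ball_zero_iff.mpr hw, h0⟩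
      exact ((differentiableOn_dslope hU).mpr fun y hy => (dΨ y hy.2
        (mem_ball_zero_iff.mp hy.1).le).differentiableWithinAt).differentiableAt hU
    · exact (differentiableAt_dslope_of_ne h).mpr (dΨ z h0 h1)
  have e : ∀ s, 0 < s → s ≤ 1 → s ≠ ‖w‖ → co (fun z => (f z - f w)⁻¹) s m =
      co (dslope Ψ w) s (-1) + Ψ w * co (fun z => (z - w)⁻¹) s (-1) := fun s h0 h1 h2 => by
    have ne : ∀ z, ‖z‖ = s → z ≠ w := fun z hz e => h2 (by rw [← hz, e])
    have n0 : ∀ z : ℂ, ‖z‖ = s → z ≠ 0 := fun z hz e => by rw [e, norm_zero] at hz; linarith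
    rw [← co_lin (φ' := fun z => (z - w)⁻¹) h0 (CC.of_diff h0 fun z hz => (dS z (n0 z hz) (hz.le.trans h1)).continuousAt)
      (CC.of_diff h0 fun z hz => (continuousAt_id.sub continuousAt_const).inv₀
        (sub_ne_zero.mpr (ne z hz))), co_eq h0, co_eq h0]
    congr 1
    refine circleIntegral.integral_congr h0.le fun z hz => ?_
    rw [mem_sphere_zero_iff_norm] at hz
    have := sub_ne_zero.mpr (ne z hz)
    simp only [g_eq (ne z hz), dslope_of_ne _ (ne z hz), slope_def_field, neg_neg, sub_self,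
      zpow_zero, one_mul]
    rw [show Ψ z = z ^ (-m - 1) * (slope f w z)⁻¹ by simp only [hΨ, dslope_of_ne _ (ne z hz)],
      slope_def_field]
    field_simp
    ring
  rw [e 1 one_pos le_rfl hw.ne', e ρ hρ (by linarith) hρw.ne, co_radius hρ (by linarith : ρ ≤ 1)
    (fun z h1 h2 => dS z (by rintro rfl; simp at h1; linarith) h2)]
  have z1 := co_neg (φ := fun z => (z - w)⁻¹) hρ (fun z hz => (differentiableAt_id.sub_const w).inv
    (sub_ne_zero.mpr (by rintro rfl; exact absurd hz (not_le.mpr hρw)))) 0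
  have z2 : co (fun z => (z - w)⁻¹) 1 (-1) = 1 := by
    rw [co_eq one_pos]
    simp only [neg_neg, sub_self, zpow_zero, one_mul]
    rw [circleIntegral.integral_sub_inv_of_mem_ball (mem_ball_zero_iff.mpr hw),
      inv_mul_cancel₀ two_pi_I_ne_zero]
  simp only [Nat.cast_zero, zero_add] at z1
  rw [z1, z2]
  simp [hΨ]

theorem area_coef {w : ℂ} (hw0 : w ≠ 0) (hw : ‖w‖ < 1) (M : ℕ) :
    ∑ m ∈ Finset.range M, (m : ℝ) * ‖co (fun z => (f z - f w)⁻¹) 1 m‖ ^ 2 ≤
      ‖(deriv f w)⁻¹‖ ^ 2 / (1 - ‖w‖ ^ 2) ^ 2 := by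
  set G : ℂ → ℂ := fun z => (f z - f w)⁻¹ with hG
  set G' : ℂ → ℂ := fun z => -deriv f z / (f z - f w) ^ 2 with hG'
  have mz : ∀ z : ℂ, ‖z‖ = 1 → z ∈ ball (0 : ℂ) R := fun z hz => mem_ball_zero_iff.mpr (hz ▸ hR)
  have ne : ∀ z : ℂ, ‖z‖ = 1 → f z - f w ≠ 0 := fun z hz e => by
    rw [hi (mz z hz) (mem_ball_zero_iff.mpr (hw.trans hR)) (sub_eq_zero.mp e)] at hz
    linarith
  have df : ∀ z : ℂ, ‖z‖ = 1 → HasDerivAt f (deriv f z) z := fun z hz =>
    (hd.differentiableAt (isOpen_ball.mem_nhds (mz z hz))).hasDerivAt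
  have d1 : ∀ z, ‖z‖ = 1 → HasDerivAt G (G' z) z := fun z hz =>
    ((df z hz).sub_const (f w)).inv (ne z hz)
  have c1 : CC G 1 := CC.of_diff one_pos fun z hz => (d1 z hz).continuousAt
  have c2 : CC G' 1 := CC.of_diff one_pos fun z hz =>
    ((hd.deriv isOpen_ball).continuousOn.continuousAt (isOpen_ball.mem_nhds (mz z hz))).neg.div
      (((df z hz).continuousAt.sub continuousAt_const).pow 2) (pow_ne_zero 2 (ne z hz))
  have c3 : CC (fun z => z * G' z) 1 := (continuous_circleMap 0 1).mul c2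
  have cc : ∀ c : ℂ, CC (fun z => G z + c * (z * G' z)) 1 := fun c => c1.add (c3.const_mul c)
  have p := ((co_parseval one_pos (cc 1)).sub (co_parseval one_pos (cc (-1)))).div_const 4
  have ar := area_thm (h := fun z => f z - f w) hR (hd.sub_const _)
    (fun x hx y hy e => hi hx hy (sub_left_injective e)) hw0 hw (sub_self _)
  have hS : ((2 * π)⁻¹ * (∫ θ in (0 : ℝ)..2 * π, ‖G (circleMap 0 1 θ) +
      1 * (circleMap 0 1 θ * G' (circleMap 0 1 θ))‖ ^ 2) - (2 * π)⁻¹ * (∫ θ in (0 : ℝ)..2 * π,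
      ‖G (circleMap 0 1 θ) + -1 * (circleMap 0 1 θ * G' (circleMap 0 1 θ))‖ ^ 2)) / 4 ≤ 0 := by
    rw [← mul_sub, ← intervalIntegral.integral_sub (((cc 1).norm.fun_pow 2).intervalIntegrable _ _)
      (((cc (-1)).norm.fun_pow 2).intervalIntegrable _ _), mul_div_assoc,
      ← intervalIntegral.integral_div]
    refine mul_nonpos_of_nonneg_of_nonpos (by positivity) (le_of_eq_of_le ?_ ar)
    have e : ∀ θ : ℝ, Om 0 (f (exp (θ * I)) - f w) * (deriv (fun z => f z - f w) (exp (θ * I)) *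
        exp (θ * I)) = conj (G (circleMap 0 1 θ)) * (circleMap 0 1 θ * G' (circleMap 0 1 θ)) :=
      fun θ => by
      have h1 := ne (exp (θ * I)) (by simp)
      have h2 : conj (f (exp (θ * I)) - f w) ≠ 0 := by rwa [map_ne_zero]
      simp only [Om, hG, hG', circleMap_zero, ofReal_one, one_mul, deriv_sub_const, map_inv₀,
        ofReal_zero, add_zero]
      field_simp
    simp only [e]
    rw [← reCLM_apply, ← ContinuousLinearMap.intervalIntegral_comp_comm _
      (f := fun θ => conj (G (circleMap 0 1 θ)) * (circleMap 0 1 θ * G' (circleMap 0 1 θ)))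
      ((c1.star.mul c3).intervalIntegrable _ _)]
    congr! 2 with θ
    simp only [← normSq_eq_norm_sq, normSq_apply, reCLM_apply, Pi.mul_apply, star_def, mul_re,
      mul_im, add_re, add_im, conj_re, conj_im, one_re, one_im, neg_re, neg_im]
    ring
  simp only [co_lin one_pos c1 c3, co_deriv one_pos d1 c2] at p
  simp only [one_zpow, one_pow, one_mul] at p
  have p' : HasSum (fun n : ℤ => (n : ℝ) * ‖co G 1 n‖ ^ 2) _ := p.congr_fun fun n => by
    rw [show co G 1 n + n * co G 1 n = ((1 + n : ℝ) : ℂ) * co G 1 n by push_cast; ring,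
      show co G 1 n + -1 * (n * co G 1 n) = ((1 - n : ℝ) : ℂ) * co G 1 n by push_cast; ring]
    simp only [norm_mul, mul_pow, norm_real, Real.norm_eq_abs, sq_abs]
    ring
  have x0 : 0 < ‖w‖ ^ 2 := pow_pos (norm_pos_iff.mpr hw0) 2
  have q := (hasSum_coe_mul_geometric_of_norm_lt_one (r := ‖w‖ ^ 2) (by
    rw [Real.norm_of_nonneg x0.le]; exact pow_lt_one₀ (norm_nonneg _) hw two_ne_zero)).mul_left
    (‖(deriv f w)⁻¹‖ ^ 2 / ‖w‖ ^ 2)
  have s : HasSum (fun n : ℕ => (n : ℝ) * ‖co G 1 n‖ ^ 2) _ := (p'.nat_add_neg.add q).congr_fun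
    fun n => by
      cases n with
      | zero => simp
      | succ n =>
        have := co_g_neg hR hd hi hw n
        push_cast
        rw [this, norm_mul, norm_pow]
        field_simp
        ring
  refine (sum_le_hasSum _ (fun _ _ => by positivity) s).trans ?_
  simp only [one_mul] at hS
  simp only [Int.cast_zero, zero_mul, add_zero]
  have : ‖(deriv f w)⁻¹‖ ^ 2 / ‖w‖ ^ 2 * (‖w‖ ^ 2 / (1 - ‖w‖ ^ 2) ^ 2) =
      ‖(deriv f w)⁻¹‖ ^ 2 / (1 - ‖w‖ ^ 2) ^ 2 := by field_simp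
  linarith

end

end Vale.Agent.P142
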