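import Mathlib

namespace Vale.Agent.P142

open Complex Metric Set Filter Topology
open scoped Real

/-- The class `𝒮`: injective holomorphic maps of the unit disc with `f 0 = 0`, `f' 0 = 1`. -/
def InS (f : ℂ → ℂ) : Prop :=
  DifferentiableOn ℂ f (ball 0 1) ∧ InjOn f (ball 0 1) ∧ f 0 = 0 ∧ deriv f 0 = 1

/-- The integral mean `M_t[f'](r)`. -/
noncomputable def intMean (f : ℂ → ℂ) (t r : ℝ) : ℝ :=
  1 / (2 * π) * ∫ θ in (-π)..π, ‖deriv f (r * exp (θ * I))‖ ^ t

/-- The growth exponent `β_f(t)`. -/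
noncomputable def beta (f : ℂ → ℂ) (t : ℝ) : EReal :=
  limsup (fun r : ℝ => ((Real.log (intMean f t r) / Real.log (1 / (1 - r)) : ℝ) : EReal)) (𝓝[<] 1)

/-- The integral-means spectrum `B_𝒮(t)`. -/
noncomputable def spectrumS (t : ℝ) : EReal := ⨆ f : {f : ℂ → ℂ // InS f}, beta f.1 t

end Vale.Agent.P142
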