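import Mathlib

/-! Real-variable part: Gamma weights, Riemann sums and the numerical inequality. -/

namespace Vale.Agent.P142

open Set Filter MeasureTheory Topology Real

theorem gam_int {a r : ℝ} (ha : 0 < a) (hr : 0 < r) :
    IntegrableOn (fun t : ℝ => t ^ (a - 1) * exp (-(r * t))) (Ioi 0) ∧
      ∫ t in Ioi (0 : ℝ), t ^ (a - 1) * exp (-(r * t)) = Gamma a / r ^ a := by
  have key := integral_rpow_mul_exp_neg_mul_Ioi ha hr
  have := Gamma_pos_of_pos ha
  refine ⟨.of_integral_ne_zero (by rw [key]; positivity), ?_⟩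
  rw [key, one_div, inv_rpow hr.le, div_eq_inv_mul]

theorem sinh_bd {L : ℝ} (hL : 0 < L) : L ^ 2 * exp (-L) ≤ (1 - exp (-L)) ^ 2 := by
  have h := self_le_sinh_iff.mpr (by linarith : 0 ≤ L / 2)
  rw [sinh_eq] at h
  have e1 : exp (-L) = exp (-(L / 2)) ^ 2 := by rw [← exp_nat_mul]; congr 1; push_cast; ring
  have e2 : exp (L / 2) * exp (-(L / 2)) = 1 := by rw [← exp_add]; simp
  have p := exp_pos (-(L / 2))
  rw [e1, ← mul_pow]
  gcongr
  nlinarith

theorem weight_ineq {α : ℝ} (hα : 0 < α) {b : ℕ → ℝ} (hb : ∀ n, 0 ≤ b n) (hs : Summable b)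
    {ι : Type} (s : Finset ι) (c : ι → ℝ) (e : ι → ℕ)
    (h : ∀ x ∈ Ioo (0 : ℝ) 1, ∑ i ∈ s, x ^ e i * c i ≤ (∑' n, x ^ n * b n) / (1 - x) ^ 2) :
    α * (α + 1) * ∑ i ∈ s, c i / (e i + 2 : ℝ) ^ (α + 2) ≤ ∑' n, b n / (n + 1 : ℝ) ^ α := by
  have g1 := fun i => gam_int (a := α + 2) (r := (e i : ℝ) + 2) (by linarith) (by positivity)
  have g2 := fun n : ℕ => gam_int (r := (n : ℝ) + 1) hα (by positivity)
  have hG := Gamma_pos_of_pos hα
  let F : ℕ → ℝ → ℝ := fun n t => b n * (t ^ (α - 1) * exp (-((n + 1) * t)))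
  have F0 : ∀ n, ∀ t ∈ Ioi (0 : ℝ), 0 ≤ F n t := fun n t ht =>
    mul_nonneg (hb n) (by have := mem_Ioi.mp ht; positivity)
  have Fi : ∀ n, ∫ t in Ioi (0 : ℝ), F n t = Gamma α * (b n / (n + 1 : ℝ) ^ α) := fun n => by
    simp only [F, integral_const_mul, (g2 n).2]; ring
  have s2 : Summable fun n : ℕ => b n / (n + 1 : ℝ) ^ α := hs.of_nonneg_of_le
    (fun n => by have := hb n; positivity) fun n => div_le_self (hb n)
      (one_le_rpow (by simp) hα.le)
  have H := hasSum_integral_of_summable_integral_norm (μ := volume.restrict (Ioi 0)) (F := F)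
    (fun n => (g2 n).1.const_mul _) ((s2.mul_left (Gamma α)).congr fun n => by
      rw [← Fi]
      exact setIntegral_congr_fun measurableSet_Ioi fun t ht => (norm_of_nonneg (F0 n t ht)).symm)
  simp only [Fi] at H
  have e1 := H.unique (s2.hasSum.mul_left (Gamma α))
  have hI : IntegrableOn (fun t => ∑' n, F n t) (Ioi 0) := by
    by_cases h0 : ∑' n : ℕ, b n / (n + 1 : ℝ) ^ α = 0
    · have : ∀ n, b n = 0 := fun n => by
        have := congrFun ((hasSum_zero_iff_of_nonneg fun n => by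
          have := hb n; positivity).mp (h0 ▸ s2.hasSum)) n
        have h2 : (0 : ℝ) < (n + 1 : ℝ) ^ α := by positivity
        simpa [h2.ne'] using this
      simp [F, this]
    · exact .of_integral_ne_zero (by rw [e1]; exact mul_ne_zero hG.ne' h0)
  have key := setIntegral_mono_on (f := fun t => ∑ i ∈ s, c i * (t ^ (α + 2 - 1) *
    exp (-((e i + 2) * t)))) (integrable_finsetSum _ fun i _ => (g1 i).1.const_mul _) hI
    measurableSet_Ioi fun t ht => by
      have t0 := mem_Ioi.mp ht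
      have x1 : exp (-t) < 1 := exp_lt_one_iff.mpr (by linarith)
      have h1 := h (exp (-t)) ⟨exp_pos _, x1⟩
      have e2 : ∑ i ∈ s, c i * (t ^ (α + 2 - 1) * exp (-((e i + 2) * t))) =
          t ^ (α - 1) * exp (-t) * (t ^ 2 * exp (-t)) * ∑ i ∈ s, exp (-t) ^ e i * c i := by
        rw [Finset.mul_sum]
        refine Finset.sum_congr rfl fun i _ => ?_
        rw [← exp_nat_mul, show -((e i + 2) * t) = -t + -t + e i * -t by ring, exp_add, exp_add,
          show α + 2 - 1 = α - 1 + (2 : ℕ) by push_cast; ring, rpow_add t0, rpow_natCast]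
        ring
      have e3 : ∑' n, F n t = t ^ (α - 1) * exp (-t) * ∑' n, exp (-t) ^ n * b n := by
        rw [← tsum_mul_left]
        refine tsum_congr fun n => ?_
        simp only [F]
        rw [← exp_nat_mul, show -((n + 1) * t) = -t + n * -t by ring, exp_add]
        ring
      have p : 0 ≤ ∑' n, exp (-t) ^ n * b n := tsum_nonneg fun n => by have := hb n; positivity
      have q : 0 < 1 - exp (-t) := by linarith
      rw [e2, e3, mul_assoc]
      gcongr
      calc _ ≤ t ^ 2 * exp (-t) * ((∑' n, exp (-t) ^ n * b n) / (1 - exp (-t)) ^ 2) := by gcongr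
        _ ≤ (1 - exp (-t)) ^ 2 * ((∑' n, exp (-t) ^ n * b n) / (1 - exp (-t)) ^ 2) := by
          gcongr; exact sinh_bd t0
        _ = _ := by field_simp
  rw [e1, integral_finsetSum _ fun i _ => (g1 i).1.const_mul _] at key
  simp only [integral_const_mul, (g1 _).2] at key
  rw [show α + 2 = α + 1 + 1 by ring, Gamma_add_one (by linarith), Gamma_add_one hα.ne',
    show α + 1 + 1 = α + 2 by ring] at key
  refine le_of_mul_le_mul_left (le_of_eq_of_le ?_ key) hG
  simp only [Finset.mul_sum]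
  exact Finset.sum_congr rfl fun i _ => by ring

theorem riemann {G : ℝ × ℝ → ℝ} (hG : Continuous G) :
    Tendsto (fun N : ℕ => (∑ n ∈ Finset.range N, G (n / N, 1 / N)) / N) atTop
      (𝓝 (∫ t in (0 : ℝ)..1, G (t, 0))) := by
  refine Metric.tendsto_atTop.mpr fun ε hε => ?_
  obtain ⟨δ, hδ, hu⟩ := Metric.uniformContinuousOn_iff.mp ((isCompact_Icc (a := (0 : ℝ × ℝ))
    (b := (1, 1))).uniformContinuousOn_of_continuous hG.continuousOn) (ε / 2) (by linarith)
  obtain ⟨N₀, hN₀⟩ := exists_nat_one_div_lt hδ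
  refine ⟨N₀ + 1, fun N hN => ?_⟩
  have N1 : (1 : ℝ) ≤ N := by exact_mod_cast (by omega : 1 ≤ N)
  have Nδ : 1 / (N : ℝ) < δ := lt_of_le_of_lt (one_div_le_one_div_of_le (by positivity)
    (by exact_mod_cast hN)) hN₀
  have c0 : Continuous fun t : ℝ => G (t, 0) := hG.comp (by fun_prop)
  have := intervalIntegral.sum_integral_adjacent_intervals (μ := volume) (f := fun t => G (t, 0))
    (a := fun k : ℕ => (k : ℝ) / N) (n := N) fun k _ => c0.intervalIntegrable _ _
  simp only [Nat.cast_zero, zero_div, div_self (by positivity : (N : ℝ) ≠ 0)] at this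
  rw [← this, Finset.sum_div, dist_eq_norm, ← Finset.sum_sub_distrib]
  refine lt_of_le_of_lt (norm_sum_le_of_le (n := fun _ => ε / 2 / N) _ fun k hk => ?_) ?_
  · have hk' : (k : ℝ) + 1 ≤ N := by exact_mod_cast Finset.mem_range.mp hk
    have e : ((k + 1 : ℕ) : ℝ) / N - k / N = 1 / N := by push_cast; ring
    have hle : (k : ℝ) / N ≤ (k + 1 : ℕ) / N := by gcongr; omega
    have e2 : G (k / N, 1 / N) / N = ∫ _ in (k : ℝ) / N..(k + 1 : ℕ) / N, G (k / N, 1 / N) := by
      rw [intervalIntegral.integral_const, e, smul_eq_mul]; ring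
    rw [e2, ← intervalIntegral.integral_sub (by simp) (c0.intervalIntegrable _ _)]
    refine (intervalIntegral.norm_integral_le_of_norm_le_const (C := ε / 2) fun t ht => ?_).trans ?_
    · rw [uIoc_of_le hle] at ht
      have h1 : ((k + 1 : ℕ) : ℝ) / N ≤ 1 := by rw [div_le_one (by positivity)]; push_cast; exact hk'
      have h2 : (0 : ℝ) ≤ k / N := by positivity
      have h3 : 1 / (N : ℝ) ≤ 1 := by rw [div_le_one (by positivity)]; exact N1
      refine (hu (k / N, 1 / N) ⟨⟨h2, by positivity⟩, ⟨hle.trans h1, h3⟩⟩ (t, 0)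
        ⟨⟨h2.trans ht.1.le, le_rfl⟩, ⟨ht.2.trans h1, zero_le_one⟩⟩ ?_).le
      rw [Prod.dist_eq, max_lt_iff, Real.dist_eq, Real.dist_eq, sub_zero, abs_lt,
        abs_of_pos (by positivity)]
      exact ⟨⟨by linarith [ht.2], by linarith [ht.1]⟩, Nδ⟩
    · rw [e, abs_of_pos (by positivity)]; exact le_of_eq (by ring)
  · rw [Finset.sum_const, Finset.card_range, nsmul_eq_mul, mul_div_cancel₀ _ (by positivity)]
    linarith

theorem beta_int (b : ℕ) : ∀ a : ℝ, 0 ≤ a → ∫ t in (0 : ℝ)..1, t ^ a * (1 - t) ^ b =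
    b.factorial / ∏ j ∈ Finset.range (b + 1), (a + 1 + j) := by
  induction b with
  | zero => intro a ha; simp [integral_rpow (Or.inl (by linarith : -1 < a)), (by linarith : a + 1 ≠ 0)]
  | succ b ih =>
    intro a ha
    have c : ∀ a : ℝ, 0 ≤ a → Continuous fun t : ℝ => t ^ a * (1 - t) ^ b := fun a ha =>
      (continuous_rpow_const ha).mul (by fun_prop)
    rw [intervalIntegral.integral_congr (g := fun t => t ^ a * (1 - t) ^ b - t ^ (a + 1) * (1 - t) ^ b)
      fun t ht => by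
        rw [uIcc_of_le zero_le_one] at ht
        simp only [rpow_add_one' ht.1 (by linarith : a + 1 ≠ 0)]; ring,
      intervalIntegral.integral_sub ((c a ha).intervalIntegrable _ _)
        ((c _ (by linarith)).intervalIntegrable _ _), ih a ha, ih _ (by linarith),
      Finset.prod_range_succ' _ (b + 1), Finset.prod_range_succ' (fun j : ℕ => a + 1 + j) b,
      Finset.prod_range_succ (fun j : ℕ => a + 1 + 1 + j) b,
      Finset.prod_range_succ (fun j : ℕ => a + 1 + (j + 1 : ℕ)) b, Nat.factorial_succ]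
    have : ∏ j ∈ Finset.range b, (a + 1 + 1 + j) = ∏ j ∈ Finset.range b, (a + 1 + (j + 1 : ℕ)) :=
      Finset.prod_congr rfl fun j _ => by push_cast; ring
    rw [this]
    have : 0 < ∏ j ∈ Finset.range b, (a + 1 + (j + 1 : ℕ)) := Finset.prod_pos fun j _ => by positivity
    push_cast at this ⊢
    field_simp
    ring

/-- The test weight. -/
def qq (t : ℝ) : ℝ := 1 + 36 * (t * (1 - t)) ^ 2 + 262144 * (t * (1 - t)) ^ 8

theorem beta_sum (a : ℝ) (ha : 0 ≤ a) (l : List (ℝ × ℕ)) :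
    ∫ t in (0 : ℝ)..1, (l.map fun p => p.1 * (t ^ (a + p.2) * (1 - t) ^ (p.2 + 1))).sum =
      (l.map fun p => p.1 * ((p.2 + 1).factorial /
        ∏ j ∈ Finset.range (p.2 + 1 + 1), (a + p.2 + 1 + j))).sum := by
  have c : ∀ l : List (ℝ × ℕ), Continuous fun t : ℝ =>
      (l.map fun p => p.1 * (t ^ (a + p.2) * (1 - t) ^ (p.2 + 1))).sum := fun l =>
    continuous_list_sum l fun p _ =>
      ((continuous_rpow_const (by positivity)).mul (by fun_prop)).const_mul _
  induction l with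
  | nil => simp
  | cons p l ih =>
    simp only [List.map_cons, List.sum_cons]
    rw [intervalIntegral.integral_add ((((continuous_rpow_const (by positivity)).fun_mul
      (by fun_prop)).const_mul _).intervalIntegrable _ _) ((c l).intervalIntegrable _ _), ih,
      intervalIntegral.integral_const_mul, beta_int _ _ (by positivity)]

theorem num_ineq : 4 * (1 + 1 / 2000) *
    ∫ t in (0 : ℝ)..1, (1 - t) * t ^ 2 * qq t ^ 2 * (t + 2 * 0) ^ ((9 / 8 : ℝ) + 2) <
      9 / 8 * (9 / 8 + 1) * (∫ t in (0 : ℝ)..1, t * (1 - t) * qq t) ^ 2 := by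
  have h1 := beta_sum 1 zero_le_one [(1, 0), (36, 2), (262144, 8)]
  have h2 := beta_sum (41 / 8) (by norm_num)
    [(1, 0), (72, 2), (1296, 4), (524288, 8), (18874368, 10), (68719476736, 16)]
  rw [intervalIntegral.integral_congr (g := fun t => t * (1 - t) * qq t) fun t ht => by
    rw [uIcc_of_le zero_le_one] at ht
    simp only [List.map_cons, List.sum_cons, List.map_nil, List.sum_nil, qq,
      rpow_add_of_nonneg ht.1 zero_le_one (Nat.cast_nonneg _), rpow_natCast, rpow_one]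
    ring] at h1
  rw [intervalIntegral.integral_congr
    (g := fun t => (1 - t) * t ^ 2 * qq t ^ 2 * (t + 2 * 0) ^ ((9 / 8 : ℝ) + 2)) fun t ht => by
    rw [uIcc_of_le zero_le_one] at ht
    have : t ^ (41 / 8 : ℝ) = t ^ ((9 / 8 : ℝ) + 2) * t ^ 2 := by
      rw [← rpow_natCast, ← rpow_add_of_nonneg ht.1 (by norm_num) (by norm_num)]; norm_num
    simp only [List.map_cons, List.sum_cons, List.map_nil, List.sum_nil, qq,
      rpow_add_of_nonneg ht.1 (by norm_num : (0 : ℝ) ≤ 41 / 8) (Nat.cast_nonneg _), rpow_natCast,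
      mul_zero, add_zero, this]
    ring] at h2
  rw [h1, h2]
  norm_num [Finset.prod_range_succ, Nat.factorial]

theorem qq_pos (t : ℝ) : 0 < qq t := by unfold qq; positivity

theorem eventually_num : ∃ N₀ : ℕ, ∀ N ≥ N₀,
    0 < ∑ n ∈ Finset.range N, ((N : ℝ) - n) * n * qq (n / N) ∧
    4 * (1 + 1 / 2000) * (∑ n ∈ Finset.range N, ((N : ℝ) - n) * n ^ 2 * qq (n / N) ^ 2 *
      (n + 2 : ℝ) ^ ((9 / 8 : ℝ) + 2)) / (N + 2 : ℝ) ^ (9 / 8 : ℝ) ≤
      9 / 8 * (9 / 8 + 1) * (∑ n ∈ Finset.range N, ((N : ℝ) - n) * n * qq (n / N)) ^ 2 := by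
  have cq : Continuous qq := by unfold qq; fun_prop
  have h1 := riemann (G := fun p => p.1 * (1 - p.1) * qq p.1) (by fun_prop)
  have h2 := riemann (G := fun p => (1 - p.1) * p.1 ^ 2 * qq p.1 ^ 2 *
    (p.1 + 2 * p.2) ^ ((9 / 8 : ℝ) + 2)) (Continuous.mul (by fun_prop)
      ((continuous_rpow_const (by norm_num)).comp (by fun_prop)))
  obtain ⟨N₀, h⟩ := eventually_atTop.mp (((h2.const_mul (4 * (1 + 1 / 2000))).eventually_lt
    ((h1.pow 2).const_mul (9 / 8 * (9 / 8 + 1))) num_ineq).and (eventually_ge_atTop 2))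
  refine ⟨N₀, fun N hN => ?_⟩
  obtain ⟨h3, h4⟩ := h N hN
  have N0 : (0 : ℝ) < N := by exact_mod_cast (by omega : 0 < N)
  have nn : ∀ n ∈ Finset.range N, (0 : ℝ) < N - n := fun n hn => by
    rw [sub_pos]; exact_mod_cast Finset.mem_range.mp hn
  refine ⟨Finset.sum_pos' (fun n hn => by have := nn n hn; have := qq_pos (n / N); positivity)
    ⟨1, Finset.mem_range.mpr h4, by
      have := nn 1 (Finset.mem_range.mpr h4); have := qq_pos ((1 : ℕ) / N); positivity⟩, ?_⟩
  have e1 : ∑ n ∈ Finset.range N, ((N : ℝ) - n) * n * qq (n / N) =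
      N ^ 3 * ((∑ n ∈ Finset.range N, n / N * (1 - n / N) * qq (n / N)) / N) := by
    rw [Finset.sum_div, Finset.mul_sum]
    exact Finset.sum_congr rfl fun n _ => by field_simp
  have e2 : ∑ n ∈ Finset.range N, ((N : ℝ) - n) * n ^ 2 * qq (n / N) ^ 2 *
      (n + 2 : ℝ) ^ ((9 / 8 : ℝ) + 2) = N ^ 6 * N ^ (9 / 8 : ℝ) * ((∑ n ∈ Finset.range N,
        (1 - n / N) * (n / N) ^ 2 * qq (n / N) ^ 2 *
          (n / N + 2 * (1 / N) : ℝ) ^ ((9 / 8 : ℝ) + 2)) / N) := by
    rw [Finset.sum_div, Finset.mul_sum]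
    refine Finset.sum_congr rfl fun n _ => ?_
    rw [show (n / N + 2 * (1 / N) : ℝ) = (n + 2) / N by ring,
      div_rpow (by positivity) N0.le, rpow_add N0, rpow_two]
    field_simp
  rw [e1, e2, div_le_iff₀ (by positivity)]
  have p : 0 ≤ (∑ n ∈ Finset.range N, (1 - n / N : ℝ) * (n / N) ^ 2 * qq (n / N) ^ 2 *
      (n / N + 2 * (1 / N) : ℝ) ^ ((9 / 8 : ℝ) + 2)) / N :=
    div_nonneg (Finset.sum_nonneg fun n hn => by
      have : (0 : ℝ) ≤ 1 - n / N := by
        rw [sub_nonneg, div_le_one N0]; linarith [nn n hn]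
      positivity) N0.le
  dsimp only at h3
  generalize (∑ n ∈ Finset.range N, (1 - n / N : ℝ) * (n / N) ^ 2 * qq (n / N) ^ 2 *
      (n / N + 2 * (1 / N) : ℝ) ^ ((9 / 8 : ℝ) + 2)) / N = V at *
  generalize (∑ n ∈ Finset.range N, (n / N : ℝ) * (1 - n / N) * qq (n / N)) / N = W at *
  calc _ = N ^ 6 * (N : ℝ) ^ (9 / 8 : ℝ) * (4 * (1 + 1 / 2000) * V) := by ring
    _ ≤ N ^ 6 * (N + 2 : ℝ) ^ (9 / 8 : ℝ) * (9 / 8 * (9 / 8 + 1) * W ^ 2) :=
      mul_le_mul (by gcongr; linarith) h3.le (by positivity) (by positivity)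
    _ = _ := by ring

theorem cs_step {a : ℂ} {k : ℕ → ℕ → ℂ} {N : ℕ} (hk : ∀ m n, m + n = N → k m n + k n m = a)
    {γ : ℝ} : (∑ n ∈ Finset.range N, ((N : ℝ) - n) * n * qq (n / N)) ^ 2 * ‖a‖ ^ 2 ≤
      4 * (∑ n ∈ Finset.range N, ((N : ℝ) - n) * n ^ 2 * qq (n / N) ^ 2 * (n + 2 : ℝ) ^ γ) *
      ∑ n ∈ Finset.range (N + 1), ((N - n : ℕ) : ℝ) * ‖k (N - n) n‖ ^ 2 / (n + 2 : ℝ) ^ γ := by
  rcases Nat.eq_zero_or_pos N with rfl | hN
  · simp
  have N0 : (0 : ℝ) < N := by exact_mod_cast hN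
  let w : ℕ → ℝ := fun n => ((N : ℝ) - n) * n * qq (n / N)
  have nn : ∀ n ∈ Finset.range (N + 1), ((N - n : ℕ) : ℝ) = N - n := fun n hn =>
    Nat.cast_sub (by simpa [Nat.lt_succ_iff] using hn)
  have w0 : ∀ n ∈ Finset.range (N + 1), 0 ≤ w n := fun n hn => by
    have := qq_pos (n / N); simp only [w, ← nn n hn]; positivity
  have h1 : (∑ n ∈ Finset.range (N + 1), w n) * ‖a‖ ≤
      2 * ∑ n ∈ Finset.range (N + 1), w n * ‖k (N - n) n‖ := by
    have e : ∑ n ∈ Finset.range (N + 1), w n * ‖k n (N - n)‖ =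
        ∑ n ∈ Finset.range (N + 1), w n * ‖k (N - n) n‖ := by
      rw [← Finset.sum_flip]
      refine Finset.sum_congr rfl fun n hn => ?_
      rw [Nat.sub_sub_self (by simpa [Nat.lt_succ_iff] using hn)]
      simp only [w, nn n hn, qq, show ((N : ℝ) - n) / N = 1 - n / N by field_simp]
      ring
    rw [two_mul, Finset.sum_mul]
    nth_rewrite 2 [← e]
    rw [← Finset.sum_add_distrib]
    refine Finset.sum_le_sum fun n hn => ?_
    rw [← mul_add, ← hk (N - n) n (by have := Finset.mem_range.mp hn; omega)]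
    exact mul_le_mul_of_nonneg_left (norm_add_le _ _) (w0 n hn)
  have h2 := Finset.sum_sq_le_sum_mul_sum_of_sq_le_mul (Finset.range (N + 1))
    (r := fun n => w n * ‖k (N - n) n‖)
    (f := fun n => ((N : ℝ) - n) * n ^ 2 * qq (n / N) ^ 2 * (n + 2 : ℝ) ^ γ)
    (g := fun n => ((N - n : ℕ) : ℝ) * ‖k (N - n) n‖ ^ 2 / (n + 2 : ℝ) ^ γ)
    (fun n hn => by rw [← nn n hn]; positivity) (fun n hn => by positivity) fun n hn => by
      have : (0 : ℝ) < (n + 2 : ℝ) ^ γ := by positivity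
      simp only [w, nn n hn]
      exact le_of_eq (by field_simp)
  have h3 := pow_le_pow_left₀ (mul_nonneg (Finset.sum_nonneg w0) (norm_nonneg a)) h1 2
  rw [Finset.sum_range_succ (fun n => ((N : ℝ) - n) * n ^ 2 * qq (n / N) ^ 2 * (n + 2 : ℝ) ^ γ)] at h2
  rw [Finset.sum_range_succ w] at h3
  simp only [w, sub_self, zero_mul, add_zero] at h2 h3
  nlinarith

theorem seq_main : ∃ N₀ : ℕ, ∀ (a : ℕ → ℂ) (k : ℕ → ℕ → ℂ), Summable (fun n => ‖a n‖ ^ 2) →
    (∀ m n, k m n + k n m = a (m + n + 1)) →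
    (∀ x ∈ Ioo (0 : ℝ) 1, ∀ M : ℕ, ∑ m ∈ Finset.range M, ∑ n ∈ Finset.range M,
      m * (x ^ n * ‖k m n‖ ^ 2) ≤ (∑' n, x ^ n * ‖a n‖ ^ 2) / (1 - x) ^ 2) →
    ∑' n, ‖a n‖ ^ 2 / (n + 1 : ℝ) ^ (9 / 8 : ℝ) ≤ 2001 * ∑ n ∈ Finset.range N₀, ‖a n‖ ^ 2 := by
  obtain ⟨N₀, hN⟩ := eventually_num
  refine ⟨N₀ + 1, fun a k hs hk h => ?_⟩
  set β : ℕ → ℝ := fun n => ‖a n‖ ^ 2 / (n + 1 : ℝ) ^ (9 / 8 : ℝ) with hβ
  have b1 : ∀ n, β n ≤ ‖a n‖ ^ 2 := fun n => div_le_self (by positivity)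
    (one_le_rpow (by simp) (by norm_num))
  have s2 : Summable β := hs.of_nonneg_of_le (fun n => by positivity) b1
  let S : ℕ → ℝ := fun N => ∑ n ∈ Finset.range (N + 1),
    ((N - n : ℕ) : ℝ) * ‖k (N - n) n‖ ^ 2 / (n + 2 : ℝ) ^ ((9 / 8 : ℝ) + 2)
  have S0 : ∀ N, 0 ≤ S N := fun N => Finset.sum_nonneg fun n _ => by positivity
  have h1 : ∀ N ≥ N₀, (1 + 1 / 2000) * β (N + 1) ≤ 9 / 8 * (9 / 8 + 1) * S N := fun N hN' => by
    obtain ⟨p, q⟩ := hN N hN'
    have c := cs_step (a := a (N + 1)) (k := k) (N := N) (γ := 9 / 8 + 2)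
      fun m n e => by rw [hk, e]
    refine le_of_mul_le_mul_left ?_ (pow_pos p 2)
    have r := mul_le_mul_of_nonneg_right q (S0 N)
    have c' := div_le_div_of_nonneg_right c (by positivity : (0 : ℝ) ≤ (N + 2 : ℝ) ^ (9 / 8 : ℝ))
    simp only [hβ, show ((N + 1 : ℕ) : ℝ) + 1 = N + 2 by push_cast; ring]
    calc _ = (1 + 1 / 2000) * (_ ^ 2 * ‖a (N + 1)‖ ^ 2 / (N + 2 : ℝ) ^ (9 / 8 : ℝ)) := by ring
      _ ≤ (1 + 1 / 2000) * (4 * _ * S N / (N + 2 : ℝ) ^ (9 / 8 : ℝ)) := by gcongr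
      _ = _ := by ring
      _ ≤ _ := r
      _ = _ := by ring
  have h2 : ∀ M, 9 / 8 * (9 / 8 + 1) * ∑ N ∈ Finset.range M, S N ≤ ∑' n, β n := fun M => by
    refine le_trans ?_ (weight_ineq (α := 9 / 8) (by norm_num) (fun n => by positivity) hs
      (Finset.range M ×ˢ Finset.range M) (fun p => p.1 * ‖k p.1 p.2‖ ^ 2) (fun p => p.2)
      fun x hx => le_of_eq_of_le ?_ (h x hx M))
    · gcongr
      rw [Finset.sum_product_right]
      refine (Finset.sum_range_diag_flip M fun n m => (m : ℝ) * ‖k m n‖ ^ 2 /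
        (n + 2 : ℝ) ^ ((9 / 8 : ℝ) + 2)).le.trans (Finset.sum_le_sum fun n _ =>
          Finset.sum_le_sum_of_subset_of_nonneg (by simp) fun _ _ _ => by positivity)
    · rw [Finset.sum_product]
      congr! 2
      ring
  have h3 : (1 + 1 / 2000) * ∑' n, β (n + (N₀ + 1)) ≤ ∑' n, β n := by
    rw [← tsum_mul_left]
    refine Real.tsum_le_of_sum_range_le (fun n => by positivity) fun M => le_trans ?_ (h2 (N₀ + M))
    rw [Finset.sum_range_add, mul_add, Finset.mul_sum (Finset.range M)]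
    refine le_add_of_nonneg_of_le (by have := Finset.sum_nonneg fun N (_ : N ∈ Finset.range N₀) => S0 N
                                      positivity) (Finset.sum_le_sum fun n _ => ?_)
    rw [show n + (N₀ + 1) = N₀ + n + 1 by ring]
    exact h1 _ (by omega)
  have h4 := s2.sum_add_tsum_nat_add (N₀ + 1)
  have h5 := Finset.sum_le_sum fun n (_ : n ∈ Finset.range (N₀ + 1)) => b1 n
  linarith

end Vale.Agent.P142
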