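import Vale.Agent.P142.Sym
import Vale.Agent.P142.Seq

/-! The integral means of `1 / f'` grow at most like `(1 - r) ^ (-9 / 8)`. -/

namespace Vale.Agent.P142

open Complex Metric Set Filter MeasureTheory Topology
open scoped Real ENNReal

theorem geom_bd {r : ℝ} (h0 : 0 < r) (h1 : r < 1) (n : ℕ) :
    (r ^ 2) ^ n * (n + 1 : ℝ) ^ (9 / 8 : ℝ) ≤ (1 - r)⁻¹ ^ (9 / 8 : ℝ) := by
  have a : r ^ n * (n + 1 : ℝ) ≤ (1 - r)⁻¹ := by
    refine le_trans ?_ (sum_le_hasSum (Finset.range (n + 1)) (fun _ _ => by positivity)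
      (hasSum_geometric_of_lt_one h0.le h1))
    have := Finset.card_nsmul_le_sum (Finset.range (n + 1)) (fun k => r ^ k) (r ^ n) fun k hk =>
      pow_le_pow_of_le_one h0.le h1.le (by simpa [Nat.lt_succ_iff] using hk)
    simpa [mul_comm] using this
  refine le_trans ?_ (Real.rpow_le_rpow (by positivity) a (by norm_num))
  rw [Real.mul_rpow (by positivity) (by positivity), ← pow_mul, mul_comm 2, pow_mul, ← Real.rpow_two]
  gcongr ?_ * _
  exact Real.rpow_le_rpow_of_exponent_ge (by positivity) (pow_le_one₀ h0.le h1.le) (by norm_num)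

theorem means_bound {f : ℂ → ℂ} (hd : DifferentiableOn ℂ f (ball 0 1)) (hi : InjOn f (ball 0 1)) :
    ∃ C, 1 ≤ C ∧ ∀ r ∈ Ioo (0 : ℝ) 1, (2 * π)⁻¹ * ∫ θ in (0 : ℝ)..2 * π,
      ‖(deriv f (circleMap 0 r θ))⁻¹‖ ^ 2 ≤ C * (1 - r)⁻¹ ^ (9 / 8 : ℝ) := by
  obtain ⟨N₀, hN⟩ := seq_main
  have hs : closedBall (0 : ℂ) (1 / 2) ⊆ ball 0 1 := closedBall_subset_ball (by norm_num)
  obtain ⟨B, hB⟩ := (isCompact_closedBall (0 : ℂ) (1 / 2)).exists_bound_of_continuousOn
    (((hd.deriv isOpen_ball).continuousOn.mono hs).inv₀ fun z hz =>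
      deriv_ne_zero_of_injOn isOpen_ball hd hi (hs hz))
  refine ⟨max 1 (2001 * (4 ^ N₀ * (2 * B) ^ 2) * 2 ^ (9 / 8 : ℝ)), le_max_left _ _,
    fun r ⟨r0, r1⟩ => ?_⟩
  obtain ⟨t, ht⟩ : ∃ t : ℝ, t = (1 + r) / 2 := ⟨_, rfl⟩
  have t0 : 0 < t := by linarith
  have t1 : t < 1 := by linarith
  have hR : 1 < t⁻¹ := (one_lt_inv₀ t0).mpr t1
  have m : ∀ z ∈ ball (0 : ℂ) t⁻¹, (t : ℂ) * z ∈ ball (0 : ℂ) 1 := fun z hz => by
    rw [mem_ball_zero_iff] at hz ⊢
    rwa [norm_mul, norm_real, Real.norm_of_nonneg t0.le, ← lt_inv_mul_iff₀ t0, mul_one]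
  have tc : (t : ℂ) ≠ 0 := by exact_mod_cast t0.ne'
  set g : ℂ → ℂ := fun z => f (t * z) with hg
  have gd : DifferentiableOn ℂ g (ball 0 t⁻¹) := hd.comp (by fun_prop) m
  have gi : InjOn g (ball 0 t⁻¹) := fun x hx y hy e => mul_left_cancel₀ tc (hi (m x hx) (m y hy) e)
  have dg : ∀ z, ‖(deriv g z)⁻¹‖ = t⁻¹ * ‖(deriv f (t * z))⁻¹‖ := fun z => by
    rw [hg, deriv_comp_mul_left, smul_eq_mul, mul_inv, norm_mul, norm_inv, norm_real,
      Real.norm_of_nonneg t0.le]
  have s1 : Summable fun n => ‖aa g n‖ ^ 2 := by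
    simpa using (psi_parseval hR gd gi one_pos le_rfl).summable
  have h1 := hN (aa g) (fun m n => TT g 1 (1 / 2) m n) s1 (TT_sym hR gd gi) fun x hx M => by
    have := circle_ineq hR gd gi (Real.sqrt_pos.mpr hx.1) ((Real.sqrt_lt' one_pos).mpr (by simpa using hx.2)) M
    rwa [Real.sq_sqrt hx.1.le] at this
  have h2 : ∑ n ∈ Finset.range N₀, ‖aa g n‖ ^ 2 ≤ 4 ^ N₀ * (2 * B) ^ 2 := by
    have p := sum_le_hasSum (Finset.range N₀) (fun _ _ => by positivity)
      (psi_parseval hR gd gi one_half_pos (by norm_num))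
    have q := intervalIntegral.norm_integral_le_of_norm_le_const (a := 0) (b := 2 * π)
      (C := (2 * B) ^ 2) (f := fun θ => ‖(deriv g (circleMap 0 (1 / 2) θ))⁻¹‖ ^ 2) fun θ _ => by
        rw [norm_pow, norm_norm, dg]
        have := hB (t * circleMap 0 (1 / 2) θ) (by
          rw [mem_closedBall_zero_iff, norm_mul, norm_cm one_half_pos, norm_real,
            Real.norm_of_nonneg t0.le]; linarith)
        gcongr
        · rw [inv_le_comm₀ t0 two_pos]; linarith
        · exact this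
    rw [sub_zero, abs_of_pos Real.two_pi_pos, mul_comm ((2 * B) ^ 2),
      ← inv_mul_le_iff₀ Real.two_pi_pos] at q
    have := p.trans ((mul_le_mul_of_nonneg_left (le_abs_self _) (by positivity)).trans q)
    refine le_trans ?_ (mul_le_mul_of_nonneg_left this (by positivity))
    rw [Finset.mul_sum]
    refine Finset.sum_le_sum fun n hn => ?_
    rw [← mul_assoc]
    refine le_mul_of_one_le_left (by positivity) ?_
    calc (1 : ℝ) = 4 ^ n * ((1 / 2) ^ 2) ^ n := by rw [← mul_pow]; norm_num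
      _ ≤ _ := by gcongr; exacts [by norm_num, (Finset.mem_range.mp hn).le]
  have r0' : 0 < r / t := by positivity
  have r1' : r / t < 1 := by rw [div_lt_one t0]; linarith
  have h3 := psi_parseval hR gd gi r0' r1'.le
  have s2 : Summable fun n : ℕ => ‖aa g n‖ ^ 2 / (n + 1 : ℝ) ^ (9 / 8 : ℝ) := s1.of_nonneg_of_le
    (fun n => by positivity) fun n => div_le_self (by positivity)
      (Real.one_le_rpow (by simp) (by norm_num))
  have h4 := hasSum_le (fun n => ?_) h3 (s2.hasSum.mul_left ((1 - r / t)⁻¹ ^ (9 / 8 : ℝ)))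
  swap
  · rw [← mul_div_assoc, le_div_iff₀ (by positivity), mul_right_comm]
    exact mul_le_mul_of_nonneg_right (geom_bd r0' r1' n) (by positivity)
  have e : ∀ θ, (t : ℂ) * circleMap 0 (r / t) θ = circleMap 0 r θ := fun θ => by
    simp only [circleMap_zero]; push_cast; field_simp
  simp only [dg, e, mul_pow, intervalIntegral.integral_const_mul] at h4
  have h5 : (1 - r / t)⁻¹ ^ (9 / 8 : ℝ) ≤ 2 ^ (9 / 8 : ℝ) * (1 - r)⁻¹ ^ (9 / 8 : ℝ) := by
    have : 0 < 1 - r := by linarith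
    have : 0 < 1 - r / t := by linarith
    rw [← Real.mul_rpow two_pos.le (by positivity)]
    gcongr
    rw [← div_eq_mul_inv, inv_eq_one_div, div_le_div_iff₀ (by positivity) (by positivity), ht]
    field_simp
    nlinarith
  have i0 : 0 ≤ ∫ θ in (0 : ℝ)..2 * π, ‖(deriv f (circleMap 0 r θ))⁻¹‖ ^ 2 :=
    intervalIntegral.integral_nonneg Real.two_pi_pos.le fun _ _ => by positivity
  have : 0 < 1 - r := by linarith
  calc _ ≤ (2 * π)⁻¹ * (t⁻¹ ^ 2 * ∫ θ in (0 : ℝ)..2 * π, ‖(deriv f (circleMap 0 r θ))⁻¹‖ ^ 2) := by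
        gcongr
        exact le_mul_of_one_le_left i0 (one_le_pow₀ hR.le)
    _ ≤ _ := h4
    _ ≤ 2 ^ (9 / 8 : ℝ) * (1 - r)⁻¹ ^ (9 / 8 : ℝ) * (2001 * (4 ^ N₀ * (2 * B) ^ 2)) :=
        mul_le_mul h5 (h1.trans (by gcongr)) (tsum_nonneg fun _ => by positivity) (by positivity)
    _ = 2001 * (4 ^ N₀ * (2 * B) ^ 2) * 2 ^ (9 / 8 : ℝ) * (1 - r)⁻¹ ^ (9 / 8 : ℝ) := by ring
    _ ≤ _ := by gcongr; exact le_max_right _ _

theorem means_bound' {f : ℂ → ℂ} (hd : DifferentiableOn ℂ f (ball 0 1)) (hi : InjOn f (ball 0 1)) :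
    ∃ C, 1 ≤ C ∧ ∀ r ∈ Ioo (0 : ℝ) 1, 1 / (2 * π) * ∫ θ in (-π)..π,
      ‖deriv f (r * exp (θ * I))‖ ^ (-2 : ℝ) ≤ C * (1 - r)⁻¹ ^ (9 / 8 : ℝ) := by
  obtain ⟨C, h1, h⟩ := means_bound hd hi
  refine ⟨C, h1, fun r hr => le_of_eq_of_le ?_ (h r hr)⟩
  have := ((periodic_circleMap 0 r).comp fun z => ‖(deriv f z)⁻¹‖ ^ 2).intervalIntegral_add_eq 0 (-π)
  rw [zero_add, show -π + 2 * π = π by ring] at this
  rw [one_div]
  congr 1
  refine Eq.trans ?_ this.symm
  congr! 2 with θ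
  simp [circleMap_zero, Real.rpow_neg]

theorem integrable_deriv {f : ℂ → ℂ} (hd : DifferentiableOn ℂ f (ball 0 1))
    (hi : InjOn f (ball 0 1)) {t : ℝ} (h1 : -16 / 9 < t) (h2 : t ≤ 0) :
    IntegrableOn (fun z => ‖deriv f z‖ ^ t) (ball 0 1) := by
  obtain ⟨C, C1, h⟩ := means_bound' hd hi
  have ne := fun z hz => deriv_ne_zero_of_injOn isOpen_ball hd hi (z₀ := z) hz
  have cd : ∀ s : ℝ, ContinuousOn (fun z => ‖deriv f z‖ ^ s) (ball 0 1) := fun s =>
    (hd.deriv isOpen_ball).continuousOn.norm.rpow_const fun z hz =>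
      Or.inl (norm_ne_zero_iff.mpr (ne z hz))
  refine ⟨(cd t).aestronglyMeasurable measurableSet_ball, ?_⟩
  rw [hasFiniteIntegral_iff_ofReal (Eventually.of_forall fun z => by positivity),
    ← lintegral_indicator measurableSet_ball, ← Complex.lintegral_comp_polarCoord_symm,
    polarCoord_target, Measure.volume_eq_prod, ← Measure.prod_restrict]
  refine (lintegral_prod_le _).trans_lt ?_
  have hI : IntegrableOn (fun r : ℝ => 2 * π * (1 + C) * (1 - r) ^ (9 / 16 * t)) (Ioo 0 1) := by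
    have := (intervalIntegral.intervalIntegrable_rpow' (a := 1) (b := 0) (r := 9 / 16 * t)
      (by linarith)).comp_sub_left 1
    simp only [sub_self, sub_zero] at this
    exact ((intervalIntegrable_iff_integrableOn_Ioo_of_le zero_le_one).mp this).const_mul _
  refine lt_of_le_of_lt ?_ hI.lintegral_lt_top
  rw [← lintegral_indicator measurableSet_Ioo, ← lintegral_indicator measurableSet_Ioi]
  refine lintegral_mono fun r => ?_
  by_cases r0 : r ∈ Ioi (0 : ℝ)
  swap
  · simp [r0]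
  rw [indicator_of_mem r0]
  have nr : ∀ θ : ℝ, ‖Complex.polarCoord.symm (r, θ)‖ = r := fun θ => by
    rw [Complex.norm_polarCoord_symm, abs_of_pos r0]
  by_cases r1 : r < 1
  swap
  · have : ∀ θ : ℝ, Complex.polarCoord.symm (r, θ) ∉ ball (0 : ℂ) 1 := fun θ => by
      rwa [mem_ball_zero_iff, nr]
    simp only [indicator_of_notMem (this _)]
    simp
  have mb : ∀ θ : ℝ, Complex.polarCoord.symm (r, θ) ∈ ball (0 : ℂ) 1 := fun θ => by
    rwa [mem_ball_zero_iff, nr]
  have ep : ∀ θ : ℝ, Complex.polarCoord.symm (r, θ) = r * exp (θ * I) := fun θ => by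
    simp [exp_mul_I]
  rw [indicator_of_mem (show r ∈ Ioo 0 1 from ⟨r0, r1⟩)]
  simp only [indicator_of_mem (mb _)]
  simp only [ep] at mb ⊢
  have p : 0 < 1 - r := by linarith
  set l := (1 - r)⁻¹ ^ (9 / 8 : ℝ) with hl
  have l0 : 0 < l := by positivity
  have e : (1 - r) ^ (9 / 16 * t) = l ^ (-t / 2) := by
    rw [hl, ← Real.rpow_mul (by positivity), Real.inv_rpow p.le, ← Real.rpow_neg p.le]
    congr 1; ring
  have c2 : Continuous fun θ : ℝ => ‖deriv f (r * exp (θ * I))‖ ^ (-2 : ℝ) :=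
    (cd _).comp_continuous (by fun_prop) mb
  have c3 : Continuous fun θ : ℝ => l ^ (-t / 2) * (1 + ‖deriv f (r * exp (θ * I))‖ ^ (-2 : ℝ) / l) :=
    by fun_prop
  calc _ ≤ ∫⁻ θ in Ioo (-π) π, ENNReal.ofReal
        (l ^ (-t / 2) * (1 + ‖deriv f (r * exp (θ * I))‖ ^ (-2 : ℝ) / l)) := by
        refine lintegral_mono fun θ => ?_
        rw [smul_eq_mul, ← ENNReal.ofReal_mul (le_of_lt r0)]
        refine ENNReal.ofReal_le_ofReal ((mul_le_of_le_one_left (by positivity) r1.le).trans ?_)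
        have n0 := norm_pos_iff.mpr (ne _ (mb θ))
        set x := ‖deriv f (r * exp (θ * I))‖
        have : x ^ t = l ^ (-t / 2) * (x ^ (-2 : ℝ) / l) ^ (-t / 2) := by
          rw [← Real.mul_rpow l0.le (by positivity), mul_div_cancel₀ _ l0.ne',
            ← Real.rpow_mul n0.le]
          congr 1; ring
        rw [this]
        gcongr
        refine (Real.rpow_le_rpow (by positivity) (le_add_of_nonneg_left zero_le_one)
          (by linarith)).trans ?_
        exact Real.rpow_le_self_of_one_le (le_add_of_nonneg_right (by positivity)) (by linarith)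
    _ ≤ _ := by
        rw [← ofReal_integral_eq_lintegral_ofReal (c3.integrableOn_Icc.mono_set Ioo_subset_Icc_self)
          (Eventually.of_forall fun θ => by positivity), ← integral_Ioc_eq_integral_Ioo,
          ← intervalIntegral.integral_of_le (by linarith [Real.pi_pos]),
          intervalIntegral.integral_const_mul, intervalIntegral.integral_add (by simp)
            ((c2.div_const l).intervalIntegrable _ _), intervalIntegral.integral_div, e]
        refine ENNReal.ofReal_le_ofReal ?_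
        have := h r ⟨r0, r1⟩
        rw [one_div, inv_mul_le_iff₀ Real.two_pi_pos, ← mul_assoc, ← div_le_iff₀ l0] at this
        rw [mul_comm]
        gcongr
        simp only [intervalIntegral.integral_const, smul_eq_mul]
        linarith

end Vale.Agent.P142
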