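import Vale.Agent.P142.Coef

/-! The two-variable coefficients and the weighted inequality. -/

namespace Vale.Agent.P142

open Complex Metric Set Filter MeasureTheory Topology
open scoped Real ComplexConjugate Interval

/-- Double Laurent coefficient of `1 / (f z - f w)` on the torus `|z| = ρ`, `|w| = r`. -/
noncomputable def TT (f : ℂ → ℂ) (ρ r : ℝ) (m n : ℤ) : ℂ :=
  co (fun w => co (fun z => (f z - f w)⁻¹) ρ m) r n

/-- Taylor coefficients of `1 / f'`. -/
noncomputable def aa (f : ℂ → ℂ) (n : ℕ) : ℂ := co (fun z => (deriv f z)⁻¹) (1 / 2) n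

theorem co_neg_fun (φ : ℂ → ℂ) (ρ : ℝ) (n : ℤ) : co (fun z => -φ z) ρ n = -co φ ρ n := by
  simp [co]

variable {f : ℂ → ℂ} {R ρ ρ' r : ℝ}
  (hR : 1 < R) (hd : DifferentiableOn ℂ f (ball 0 R)) (hi : InjOn f (ball 0 R))
include hR hd hi

theorem TT_left (hρ : 0 < ρ) (h : ρ ≤ ρ') (h1 : ρ' ≤ 1) (hr : 0 < r) (hr1 : r ≤ 1)
    (hh : r < ρ ∨ ρ' < r) (m n : ℤ) : TT f ρ' r m n = TT f ρ r m n :=
  co_congr hr (fun w hw => co_radius hρ h (fun z h2 h3 => diff_g hR hd hi (h3.trans h1)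
    (hw.le.trans hr1) (by rintro rfl; rcases hh with hh | hh <;> linarith)) m) n

theorem TT_swap (hρ : 0 < ρ) (h1 : ρ ≤ 1) (hr : 0 < r) (hr1 : r ≤ 1) (h : ρ ≠ r) (m n : ℤ) :
    TT f ρ r m n = -TT f r ρ n m := by
  rw [TT, co_swap (Φ := fun z w => (f z - f w)⁻¹) hρ hr (cont_g hR hd hi hρ h1 hr hr1 h), TT,
    ← co_neg_fun]
  congr 1
  funext z
  rw [← co_neg_fun]
  congr 1
  funext w
  rw [← neg_sub, inv_neg]

theorem TT_right (hr : 0 < r) (hr1 : r < 1) (m n : ℤ) : TT f 1 r m n = TT f 1 (1 / 2) m n := by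
  rw [TT_swap hR hd hi one_pos le_rfl hr hr1.le hr1.ne',
    TT_swap hR hd hi one_pos le_rfl one_half_pos (by norm_num) (by norm_num)]
  rcases le_total r (1 / 2) with h | h
  · rw [TT_left hR hd hi hr h (by norm_num) one_pos le_rfl (Or.inr (by norm_num))]
  · rw [TT_left hR hd hi one_half_pos h hr1.le one_pos le_rfl (Or.inr hr1)]

theorem aa_eq (hr : 0 < r) (hr1 : r ≤ 1) (n : ℕ) :
    co (fun z => (deriv f z)⁻¹) r n = aa f n := by
  rw [aa, ← co_radius hr hr1 fun z _ h => diff_psi hR hd hi h,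
    ← co_radius one_half_pos (by norm_num : (1 / 2 : ℝ) ≤ 1) fun z _ h => diff_psi hR hd hi h]

theorem TT_sym (m n : ℕ) : TT f 1 (1 / 2) m n + TT f 1 (1 / 2) n m = aa f (m + n + 1) := by
  have c1 : CC (fun w => w ^ (-(m : ℤ) - 1) * (deriv f w)⁻¹) (1 / 2) :=
    (cont_zpow one_half_pos _).mul (CC.of_diff (φ := fun w => (deriv f w)⁻¹) one_half_pos
      fun z hz => (diff_psi hR hd hi (by rw [hz]; norm_num)).continuousAt)
  have h1 : TT f 1 (1 / 2) m n = TT f (1 / 4) (1 / 2) m n + aa f (m + n + 1) := by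
    rw [TT, co_congr one_half_pos fun w hw => co_g_jump hR hd hi (ρ := 1 / 4)
      (by rw [hw]; norm_num) (by norm_num) (by rw [hw]; norm_num) m,
      co_lin one_half_pos (co_param (Φ := fun z w => (f z - f w)⁻¹) (by norm_num)
        (cont_g hR hd hi (by norm_num) (by norm_num) one_half_pos (by norm_num) (by norm_num)) m) c1,
      one_mul, TT, aa]
    congr 1
    simp only [co, ← mul_assoc, ← zpow_add₀ (circleMap_ne_center (c := 0) one_half_pos.ne')]
    congr! 5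
    push_cast; ring
  rw [h1, TT_swap hR hd hi (ρ := 1 / 4) (by norm_num) (by norm_num) one_half_pos (by norm_num)
    (by norm_num), ← TT_left hR hd hi (ρ := 1 / 2) (ρ' := 1) one_half_pos (by norm_num) le_rfl
    (by norm_num) (by norm_num) (Or.inl (by norm_num)),
    TT_right hR hd hi (r := 1 / 4) (by norm_num) (by norm_num)]
  ring

theorem psi_parseval (hr : 0 < r) (hr1 : r ≤ 1) : HasSum (fun n : ℕ => (r ^ 2) ^ n * ‖aa f n‖ ^ 2)
    ((2 * π)⁻¹ * ∫ θ in (0 : ℝ)..2 * π, ‖(deriv f (circleMap 0 r θ))⁻¹‖ ^ 2) := by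
  have := (co_parseval hr (CC.of_diff (φ := fun w => (deriv f w)⁻¹) hr fun z hz =>
    (diff_psi hR hd hi (hz.le.trans hr1)).continuousAt)).nat_add_neg_add_one
  refine this.congr_fun fun n => ?_
  rw [co_neg hr fun z hz => diff_psi hR hd hi (hz.trans hr1), aa_eq hR hd hi hr hr1, zpow_natCast,
    ← pow_mul, ← pow_mul, mul_comm n]
  simp

theorem circle_ineq (hr : 0 < r) (hr1 : r < 1) (M : ℕ) :
    ∑ m ∈ Finset.range M, ∑ n ∈ Finset.range M, m * ((r ^ 2) ^ n * ‖TT f 1 (1 / 2) m n‖ ^ 2) ≤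
      (∑' n : ℕ, (r ^ 2) ^ n * ‖aa f n‖ ^ 2) / (1 - r ^ 2) ^ 2 := by
  have cc := fun m : ℤ => co_param (Φ := fun z w => (f z - f w)⁻¹) one_pos
    (cont_g hR hd hi one_pos le_rfl hr hr1.le hr1.ne') m
  have c2 : CC (fun w => (deriv f w)⁻¹) r := CC.of_diff hr fun z hz =>
    (diff_psi hR hd hi (hz.le.trans hr1.le)).continuousAt
  have h1 : ∀ m : ℕ, ∑ n ∈ Finset.range M, (r ^ 2) ^ n * ‖TT f 1 (1 / 2) m n‖ ^ 2 ≤
      (2 * π)⁻¹ * ∫ θ in (0 : ℝ)..2 * π,
        ‖co (fun z => (f z - f (circleMap 0 r θ))⁻¹) 1 m‖ ^ 2 := fun m => by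
    refine le_trans (Finset.sum_le_sum fun n _ => ?_) (sum_le_hasSum (Finset.range M)
      (fun _ _ => by positivity) (co_parseval hr (cc m)).nat_add_neg_add_one)
    rw [← TT_right hR hd hi hr hr1, zpow_natCast, ← pow_mul, ← pow_mul, mul_comm n]
    exact le_add_of_nonneg_right (by positivity)
  rw [(psi_parseval hR hd hi hr hr1.le).tsum_eq, mul_div_assoc, ← intervalIntegral.integral_div]
  simp only [← Finset.mul_sum]
  refine (Finset.sum_le_sum fun m _ => mul_le_mul_of_nonneg_left (h1 m) (by positivity)).trans ?_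
  simp only [mul_left_comm _ (2 * π)⁻¹, ← Finset.mul_sum]
  refine mul_le_mul_of_nonneg_left ?_ (by positivity)
  simp only [← intervalIntegral.integral_const_mul]
  have ii : ∀ m : ℕ, Continuous fun θ => (m : ℝ) *
      ‖co (fun z => (f z - f (circleMap 0 r θ))⁻¹) 1 m‖ ^ 2 := fun m =>
    ((cc m).norm.pow 2).const_mul _
  rw [← intervalIntegral.integral_finsetSum fun m _ => (ii m).intervalIntegrable _ _]
  refine intervalIntegral.integral_mono_on Real.two_pi_pos.le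
    ((continuous_finsetSum _ fun m _ => ii m).intervalIntegrable _ _)
    (((c2.norm.pow 2).div_const _).intervalIntegrable _ _) fun θ _ => ?_
  have := area_coef hR hd hi (w := circleMap 0 r θ) (circleMap_ne_center hr.ne')
    (by rwa [norm_cm hr]) M
  rwa [norm_cm hr] at this

end Vale.Agent.P142
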